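import Crest.Agent.R57.Basic

/-! Row 57 toolkit: signatures, the column inequality and the double-counting identity. -/

set_option autoImplicit false
set_option linter.unusedSectionVars false

namespace Crest.Agent.R57

open Finset

variable {V : Type*} [Fintype V] [DecidableEq V] {A : V → Finset V} {w : V → ℝ}

/-- in-neighbours -/
def In (A : V → Finset V) (t : V) : Finset V := univ.filter (fun x => t ∈ A x)

/-- vertices reaching `t` in at most two steps -/
def R (A : V → Finset V) (t : V) : Finset V := univ.filter (fun x => t ∈ G A (G A {x}))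

/-- the column set `{t} ∪ (V \ R t)` -/
def St (A : V → Finset V) (t : V) : Finset V := univ \ (R A t \ {t})

/-- vertices whose closed in-neighbourhood lies in `R t \ {t}` -/
def It (A : V → Finset V) (t : V) : Finset V := univ \ G A (St A t)

/-- vertices `x` with `R x ⊆ R t \ {t}` -/
def Ct (A : V → Finset V) (t : V) : Finset V := univ \ G A (G A (St A t))

/-- signature of `S`: `+1` on `N1 S`, `-1` on `N2 S` -/
def sg (A : V → Finset V) (S : Finset V) (y : V) : ℝ :=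
  if y ∈ S then 0 else if y ∈ G A S then 1 else if y ∈ G A (G A S) then -1 else 0

lemma mem_In {x t : V} : x ∈ In A t ↔ t ∈ A x := by simp [In]

lemma mem_R {x t : V} : x ∈ R A t ↔ t ∈ G A (G A {x}) := by simp [R]

lemma mem_GG {S : Finset V} {y : V} : y ∈ G A (G A S) ↔ ∃ x ∈ S, x ∈ R A y := by
  simp only [mem_R, mem_G, mem_singleton]
  constructor
  · rintro ((h | ⟨x, hx, h⟩) | ⟨z, hz | ⟨x, hx, hz⟩, h⟩)
    · exact ⟨y, h, Or.inl (Or.inl rfl)⟩
    · exact ⟨x, hx, Or.inl (Or.inr ⟨x, rfl, h⟩)⟩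
    · exact ⟨z, hz, Or.inl (Or.inr ⟨z, rfl, h⟩)⟩
    · exact ⟨x, hx, Or.inr ⟨z, Or.inr ⟨x, rfl, hz⟩, h⟩⟩
  · rintro ⟨x, hx, (rfl | ⟨_, rfl, h⟩) | ⟨z, rfl | ⟨_, rfl, hz⟩, h⟩⟩
    · exact Or.inl (Or.inl hx)
    · exact Or.inl (Or.inr ⟨_, hx, h⟩)
    · exact Or.inr ⟨_, Or.inl hx, h⟩
    · exact Or.inr ⟨z, Or.inr ⟨_, hx, hz⟩, h⟩

lemma mem_R' {x t : V} : x ∈ R A t ↔ x = t ∨ t ∈ A x ∨ ∃ z ∈ A x, t ∈ A z := by
  simp only [mem_R, mem_G, mem_singleton]
  constructor
  · rintro ((h | ⟨_, rfl, h⟩) | ⟨z, rfl | ⟨_, rfl, hz⟩, h⟩)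
    · exact Or.inl h.symm
    · exact Or.inr (Or.inl h)
    · exact Or.inr (Or.inl h)
    · exact Or.inr (Or.inr ⟨z, hz, h⟩)
  · rintro (rfl | h | ⟨z, hz, h⟩)
    · exact Or.inl (Or.inl rfl)
    · exact Or.inl (Or.inr ⟨x, rfl, h⟩)
    · exact Or.inr ⟨z, Or.inr ⟨x, rfl, hz⟩, h⟩

lemma self_mem_R (t : V) : t ∈ R A t := mem_R'.2 (Or.inl rfl)

lemma mem_St {x t : V} : x ∈ St A t ↔ x = t ∨ x ∉ R A t := by
  simp only [St, mem_sdiff, mem_univ, true_and, mem_singleton]
  tauto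

lemma mem_It {x t : V} :
    x ∈ It A t ↔ ∀ y, (y = x ∨ x ∈ A y) → y ∈ R A t ∧ y ≠ t := by
  simp only [It, mem_sdiff, mem_univ, true_and, mem_G, mem_St]
  constructor
  · intro h y hy
    by_contra hc
    have h1 : y = t ∨ y ∉ R A t := by tauto
    rcases hy with rfl | hy
    · exact h (Or.inl h1)
    · exact h (Or.inr ⟨y, h1, hy⟩)
  · rintro h (h1 | ⟨y, h1, hy⟩)
    · have := h x (Or.inl rfl); tauto
    · have := h y (Or.inr hy); tauto

lemma mem_Ct {x t : V} : x ∈ Ct A t ↔ ∀ y ∈ R A x, y ∈ R A t ∧ y ≠ t := by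
  simp only [Ct, mem_sdiff, mem_univ, true_and, mem_GG, mem_St]
  constructor
  · intro h y hy
    by_contra hc
    exact h ⟨y, by tauto, hy⟩
  · rintro h ⟨y, h1, hy⟩
    have := h y hy
    tauto

lemma Ct_subset_It (t : V) : Ct A t ⊆ It A t :=
  sdiff_subset_sdiff Subset.rfl (subset_G A _)

lemma In_subset_It (hA : Ori A) (t : V) : In A t ⊆ It A t := by
  intro x hx
  rw [mem_In] at hx
  refine mem_It.2 fun y hy => ?_
  rcases hy with rfl | hy
  · exact ⟨mem_R'.2 (Or.inr (Or.inl hx)), fun e => hA.1 t (by rw [e] at hx; exact hx)⟩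
  · exact ⟨mem_R'.2 (Or.inr (Or.inr ⟨x, hy, hx⟩)), fun e => hA.2 x t hx (by rw [e] at hy; exact hy)⟩

lemma phi_eq_sum (S : Finset V) : phi A w S = ∑ y, sg A S y * w y := by
  simp only [phi, W_eq, Finset.mul_sum, ← Finset.sum_sub_distrib]
  refine Finset.sum_congr rfl fun y _ => ?_
  have h1 : y ∈ S → y ∈ G A S := fun h => subset_G A S h
  have h2 : y ∈ G A S → y ∈ G A (G A S) := fun h => subset_G A _ h
  unfold sg
  by_cases a : y ∈ S <;> by_cases b : y ∈ G A S <;> by_cases c : y ∈ G A (G A S) <;>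
    simp_all <;> ring

lemma W_compl (S : Finset V) : W w (univ \ S) = W w univ - W w S := W_sdiff (subset_univ S)

lemma phi_St (t : V) : phi A w (St A t) = W w (Ct A t) + W w (R A t \ {t}) - 2 * W w (It A t) := by
  have h : W w (St A t) = W w univ - W w (R A t \ {t}) := W_compl _
  simp only [phi, It, Ct, W_compl, h]
  ring

/-- the column inequality -/
theorem Ext.col (hw : ∀ v, 0 ≤ w v) (h : Ext A w) (t : V) :
    2 * W w (It A t) ≤ W w (Ct A t) + W w (R A t \ {t}) := by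
  have := h.phi_nonneg hw (St A t)
  rw [phi_St] at this
  linarith

/-- double counting -/
theorem sum_phi (hA : Ori A) :
    ∑ x, w x * phi A w {x} = ∑ t, w t * (2 * W w (In A t) - W w (R A t \ {t})) := by
  simp only [phi_eq_sum, W_eq, Finset.mul_sum, ← Finset.sum_sub_distrib]
  rw [Finset.sum_comm]
  refine Finset.sum_congr rfl fun t _ => Finset.sum_congr rfl fun x _ => ?_
  have h1 := hA.1 x
  have h2 : t ∈ G A {x} → t ∈ G A (G A {x}) := fun h => subset_G A _ h
  simp only [sg, mem_In, mem_sdiff, mem_R, mem_singleton, mem_G_single]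
  rw [mem_G_single] at h2
  by_cases a : t = x
  · subst a; simp [h1]
  · have a' : x ≠ t := fun e => a e.symm
    by_cases b : t ∈ A x <;> by_cases c : t ∈ G A (G A {x}) <;> simp_all <;> ring

/-- what remains to be refuted: the bad pairs outweigh the doubly slack pairs -/
theorem Ext.gap [Nonempty V] (hw : ∀ v, 0 < w v) (h : Ext A w) :
    0 < ∑ x, w x * phi A w {x} ∧
    ∑ x, w x * phi A w {x} ≤ ∑ t, w t * (W w (Ct A t) - 2 * W w (It A t \ In A t)) := by
  refine ⟨Finset.sum_pos (fun x _ => mul_pos (hw x) (h.1.2 x)) univ_nonempty, ?_⟩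
  rw [sum_phi h.1.1]
  refine Finset.sum_le_sum fun t _ => mul_le_mul_of_nonneg_left ?_ (hw t).le
  rw [W_sdiff (In_subset_It h.1.1 t)]
  linarith [h.col (fun v => (hw v).le) t]

/-- two families of sets with pointwise non-positive signature sum are impossible -/
theorem Ext.two_families [Nonempty V] (hw : ∀ v, 0 < w v) (h : Ext A w) (P Q : V → Finset V)
    (hPQ : ∀ x y, sg A (P x) y + sg A (Q y) x ≤ 0) (x₀ : V) (hx₀ : G A (P x₀) ≠ P x₀) : False := by
  have hw' : ∀ v, 0 ≤ w v := fun v => (hw v).le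
  have h1 : 0 < ∑ x, w x * phi A w (P x) :=
    Finset.sum_pos' (fun x _ => mul_nonneg (hw' x) (h.phi_nonneg hw' _))
      ⟨x₀, mem_univ _, mul_pos (hw x₀) (h.phi_pos hw' _ hx₀)⟩
  have h2 : 0 ≤ ∑ y, w y * phi A w (Q y) :=
    Finset.sum_nonneg fun y _ => mul_nonneg (hw' y) (h.phi_nonneg hw' _)
  have h3 : ∑ x, w x * phi A w (P x) + ∑ y, w y * phi A w (Q y) ≤ 0 := by
    simp only [phi_eq_sum, Finset.mul_sum]
    rw [Finset.sum_comm (f := fun y x => w y * (sg A (Q y) x * w x)), ← Finset.sum_add_distrib]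
    refine Finset.sum_nonpos fun x _ => ?_
    rw [← Finset.sum_add_distrib]
    refine Finset.sum_nonpos fun y _ => ?_
    have := mul_nonpos_of_nonneg_of_nonpos (mul_nonneg (hw' x) (hw' y)) (hPQ x y)
    nlinarith
  linarith

/-- (P): adding adoptable second neighbours `Z` to the out-neighbourhood of `x` -/
theorem Ext.adopt_add (hw : ∀ v, 0 ≤ w v) (h : Ext A w) (x : V) (Z : Finset V)
    (hZ : ∀ y ∈ Z, y ∉ A x ∧ x ∈ It A y) :
    2 * W w Z ≤ W w (G A Z \ G A (A x)) := by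
  have hA := h.1.1
  have hx : x ∉ A x ∪ Z := by
    rw [mem_union, not_or]
    exact ⟨hA.1 x, fun hx => (mem_It.1 (hZ x hx).2 x (Or.inl rfl)).2 rfl⟩
  have hT : ∀ y ∈ A x ∪ Z, x ∉ A y := by
    intro y hy hxy
    rcases mem_union.1 hy with hy | hy
    · exact hA.2 x y hy hxy
    · exact (mem_It.1 (hZ y hy).2 y (Or.inr hxy)).2 rfl
  have h1 := h.adopt hw x (A x ∪ Z) hx hT (fun z hz y hy => by
    rcases mem_union.1 hy with hy | hy
    · exact mem_R.1 (mem_R'.2 (Or.inr (Or.inr ⟨x, hz, hy⟩)))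
    · exact mem_R.1 (mem_It.1 (hZ y hy).2 z (Or.inr hz)).1)
  have hxG : x ∉ G A (A x) := by
    intro hh
    rcases mem_G.1 hh with h2 | ⟨y, hy, h2⟩
    · exact hA.1 x h2
    · exact hA.2 x y hy h2
  have g1 : G A {x} = {x} ∪ A x := by ext y; simp [mem_G_single]
  have g3 : G A ({x} ∪ A x) = {x} ∪ G A (A x) := by
    rw [G_union, g1, union_assoc, union_eq_right.2 (subset_G A _)]
  have px : phi A w {x} = 2 * W w (A x) - W w (G A (A x)) := by
    rw [phi, g1, g3, W_union (by simpa using hA.1 x), W_union (by simpa using hxG)]; ring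
  have e1 : W w (A x ∪ Z) = W w (A x) + W w Z :=
    W_union (Finset.disjoint_left.2 fun y hy hz => (hZ y hz).1 hy)
  have e2 : W w (G A (A x ∪ Z)) = W w (G A (A x)) + W w (G A Z \ G A (A x)) := by
    rw [G_union, ← W_union disjoint_sdiff, union_sdiff_self_eq_union]
  rw [px, e1, e2] at h1
  linarith

end Crest.Agent.R57
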