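import Crest.Agent.R57.FDef

set_option autoImplicit false
set_option linter.unusedSectionVars false

namespace Crest.Agent.R57F

open Finset
open scoped Classical

/-- layer cake. Plan: induction on the card of the support of f in N (subtract min * indicator),
or choose F j := any upper bound of f on nb j. -/
theorem layer {ι β : Type*} (N : Finset ι) (B : Finset β) (nb : β → Finset ι)
    (hall : ∀ M ⊆ N, M.card ≤ (B.filter (fun j => ∃ i ∈ nb j, i ∈ M)).card)
    (f : ι → ℝ) (hf : ∀ i, 0 ≤ f i) (F : β → ℝ) (hF0 : ∀ j ∈ B, 0 ≤ F j)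
    (hF : ∀ j ∈ B, ∀ i ∈ nb j, f i ≤ F j) :
    ∑ i ∈ N, f i ≤ ∑ j ∈ B, F j := by
  sorry

end Crest.Agent.R57F
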