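import Crest.Agent.R57.FDef

set_option autoImplicit false
set_option linter.unusedSectionVars false

namespace Crest.Agent.R57F

open Finset
open scoped Classical

/-- softmax mean of t⁺ is ≥ max t⁺ - card. Plan: if t i0 ≤ 0 trivial; else denominator ≥ exp (t i0) for the
maximiser i0, and exp(t i - M) * (M - t i) ≤ 1. -/
theorem soft {ι : Type*} (s : Finset ι) (t : ι → ℝ) (i0 : ι) (h0 : i0 ∈ s) :
    max (t i0) 0 - (s.card : ℝ) ≤
      ∑ i ∈ s, max (t i) 0 * (Real.exp (t i) / ∑ i' ∈ s, Real.exp (t i')) := by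
  sorry

end Crest.Agent.R57F
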