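import Crest.Agent.R57.FOpt
import Crest.Agent.R57.FHall
import Crest.Agent.R57.FSoft

set_option autoImplicit false
set_option linter.unusedSectionVars false

namespace Crest.Agent.R57F

open Finset
open scoped Classical

/-- Plan: ∑_{i∈N} P B = |B|, ∑ P C = |C| (swap sums). For ε>0 take t from `exists_bal`; per cell
(p-1)(q-1) ≥ ε t⁺ (p-1) + ε (-t)⁺ (q-1); ∑ t⁺ p = ∑_j (softmax mean) =: ∑_j (F j - |N|) and `layer` with
F j = mean + |N| (`soft`) gives ∑ t⁺ p ≥ ∑ t⁺ - |N||B|. Let ε → 0 (le_of_forall_pos_le_add). -/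
theorem abs_ineq {ι β γ : Type*} [Fintype ι] (N : Finset ι) (B : Finset β) (C : Finset γ)
    (nb : β → Finset ι) (nc : γ → Finset ι)
    (hb : ∀ j ∈ B, (nb j).Nonempty) (hc : ∀ k ∈ C, (nc k).Nonempty)
    (hbN : ∀ j ∈ B, nb j ⊆ N) (hcN : ∀ k ∈ C, nc k ⊆ N)
    (hallB : ∀ M ⊆ N, M.card ≤ (B.filter (fun j => ∃ i ∈ nb j, i ∈ M)).card)
    (hallC : ∀ M ⊆ N, M.card ≤ (C.filter (fun j => ∃ i ∈ nc j, i ∈ M)).card)
    (e : ℝ) (he : ∀ t : ι → ℝ, ∑ i ∈ N, P B nb t i * P C nc (fun i => - t i) i ≤ e) :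
    (B.card : ℝ) + C.card ≤ N.card + e := by
  sorry

end Crest.Agent.R57F
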