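import Crest.Agent.R57.FDef

set_option autoImplicit false
set_option linter.unusedSectionVars false

namespace Crest.Agent.R57F

open Finset
open scoped Classical

variable {V : Type*} [Fintype V]

theorem adm (g : V → V → Prop) (hr : ∀ a, g a a) (ha : ∀ a b, g a b → g b a → a = b)
    (T1 T2 : Finset (V × V)) (h : Feas g T1 T2) : Feas g (dl g (er g T1)) (dl g (er g T2)) := by
  sorry

/-- Plan (n = card V): |T1|+|T2| = n²+n-|N|; |er T1| = n + n² - |dl T2| - |Cs|; |er T2| = n + n² - |dl T1| - |Bs|;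
|dl er T1| + |dl er T2| ≤ n²+n-|Es| (`adm`, and (y,v) ∈ Es → (y,v) ∉ dl er T1, (v,y) ∉ dl er T2).
Write every card as ∑ over (a,b) of an indicator, swap coordinates where needed, compare pointwise. -/
theorem count (g : V → V → Prop) (hr : ∀ a, g a a) (ha : ∀ a b, g a b → g b a → a = b)
    (T1 T2 : Finset (V × V)) (h : Feas g T1 T2) :
    kk g (er g T1) + kk g (er g T2) + ((Ns T1 T2).card : ℝ) + ((Es g T1 T2).card : ℝ) ≤
      kk g T1 + kk g T2 + ((Bs g T1 T2).card : ℝ) + ((Cs g T1 T2).card : ℝ) := by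
  sorry

end Crest.Agent.R57F
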