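import Mathlib

set_option autoImplicit false
set_option linter.unusedSectionVars false

namespace Crest.Agent.R57F

open Finset
open scoped Classical

/-- softmax share collected by cell `i` from the blocks `j ∈ Bs` with neighbourhoods `nb j` -/
noncomputable def P {ι β : Type*} (Bs : Finset β) (nb : β → Finset ι) (t : ι → ℝ) (i : ι) : ℝ :=
  ∑ j ∈ Bs, if i ∈ nb j then Real.exp (t i) / ∑ i' ∈ nb j, Real.exp (t i') else 0

variable {V : Type*} [Fintype V]

/-- right dilation `T G` -/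
noncomputable def dl (g : V → V → Prop) (T : Finset (V × V)) : Finset (V × V) :=
  univ.filter (fun p => ∃ x, (p.1, x) ∈ T ∧ g x p.2)

noncomputable def kk (g : V → V → Prop) (T : Finset (V × V)) : ℝ :=
  ((dl g T).card : ℝ) - (T.card : ℝ)

def Feas (g : V → V → Prop) (T1 T2 : Finset (V × V)) : Prop :=
  (∀ a b, g a b → (a, b) ∈ T1) ∧ (∀ a b, g a b → (a, b) ∈ T2) ∧
    ∀ a b, (a, b) ∈ T1 → (b, a) ∈ T2 → a = b

/-- gap cells `(s,x)` -/
noncomputable def Ns (T1 T2 : Finset (V × V)) : Finset (V × V) :=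
  univ.filter (fun c => c ∉ T1 ∧ (c.2, c.1) ∉ T2)

/-- cells `(s,v)` -/
noncomputable def Bs (g : V → V → Prop) (T1 T2 : Finset (V × V)) : Finset (V × V) :=
  univ.filter (fun p => p ∉ dl g T1 ∧ ∃ x, g x p.2 ∧ (p.1, x) ∈ Ns T1 T2)

noncomputable def nb (g : V → V → Prop) (T1 T2 : Finset (V × V)) (p : V × V) : Finset (V × V) :=
  (Ns T1 T2).filter (fun c => c.1 = p.1 ∧ g c.2 p.2)

/-- cells `(y,x)` -/
noncomputable def Cs (g : V → V → Prop) (T1 T2 : Finset (V × V)) : Finset (V × V) :=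
  univ.filter (fun p => (p.2, p.1) ∉ dl g T2 ∧ ∃ s, g s p.1 ∧ (s, p.2) ∈ Ns T1 T2)

noncomputable def nc (g : V → V → Prop) (T1 T2 : Finset (V × V)) (p : V × V) : Finset (V × V) :=
  (Ns T1 T2).filter (fun c => c.2 = p.2 ∧ g c.1 p.1)

/-- cells `(y,v)` -/
noncomputable def Es (g : V → V → Prop) (T1 T2 : Finset (V × V)) : Finset (V × V) :=
  univ.filter (fun p => (∃ s, g s p.1 ∧ (s, p.2) ∉ dl g T1) ∧ (∃ x, g x p.2 ∧ (x, p.1) ∉ dl g T2))

/-- left erosion plus the diagonal -/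
noncomputable def er (g : V → V → Prop) (T : Finset (V × V)) : Finset (V × V) :=
  univ.filter (fun p => p.1 = p.2 ∨ ∀ s, g s p.1 → s ≠ p.2 ∧ (s, p.2) ∈ T)

end Crest.Agent.R57F
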