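import Crest.Agent.R57.FDef

set_option autoImplicit false
set_option linter.unusedSectionVars false

namespace Crest.Agent.R57F

open Finset
open scoped Classical

/-- Lehman / Rayleigh shorting. Plan: R = ∑ i, 1/r i. For each j Cauchy-Schwarz
(`Finset.sum_mul_sq_le_sq_mul_sq` or `div_add_div_same`-free form `Finset.sq_sum_div_le_sum_sq_div`):
R^2 / c j ≤ ∑ i, a i j / (r i)^2; sum over j gives R^2 * ∑ 1/c j ≤ R. -/
theorem lehman {S X : Type*} (s : Finset S) (x : Finset X) (a : S → X → ℝ)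
    (ha : ∀ i j, 0 < a i j) :
    (∑ i ∈ s, 1 / ∑ j ∈ x, a i j) * (∑ j ∈ x, 1 / ∑ i ∈ s, (a i j)⁻¹) ≤ 1 := by
  sorry

end Crest.Agent.R57F
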