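import Crest.Agent.R57.FDef

set_option autoImplicit false
set_option linter.unusedSectionVars false

namespace Crest.Agent.R57F

open Finset
open scoped Classical

variable {V : Type*} [Fintype V]

/-- Plan: T1 ∪ M is feasible, card (T1 ∪ M) = card T1 + card M, dl (T1 ∪ M) ⊆ dl T1 ∪ (filter). -/
theorem hallB (g : V → V → Prop) (T1 T2 : Finset (V × V)) (h : Feas g T1 T2)
    (hmin : ∀ T, Feas g T T2 → kk g T1 ≤ kk g T) :
    ∀ M ⊆ Ns T1 T2, M.card ≤ ((Bs g T1 T2).filter (fun j => ∃ i ∈ nb g T1 T2 j, i ∈ M)).card := by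
  sorry

/-- Plan: T2 ∪ M.image Prod.swap. -/
theorem hallC (g : V → V → Prop) (T1 T2 : Finset (V × V)) (h : Feas g T1 T2)
    (hmin : ∀ T, Feas g T1 T → kk g T2 ≤ kk g T) :
    ∀ M ⊆ Ns T1 T2, M.card ≤ ((Cs g T1 T2).filter (fun j => ∃ i ∈ nc g T1 T2 j, i ∈ M)).card := by
  sorry

end Crest.Agent.R57F
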