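import Crest.Agent.R57.FLeh

set_option autoImplicit false
set_option linter.unusedSectionVars false

namespace Crest.Agent.R57F

open Finset
open scoped Classical

variable {V : Type*} [Fintype V]

/-- Plan: expand; a term is indexed by (s,x)∈N, (s,v)∈B with g x v, (y,x)∈C with g s y, value 1/(A(s,v) C(y,x)).
Regroup by (y,v): S={s | g s y, (s,v)∉dl T1}, X={x | g x v, (x,y)∉dl T2}; S×X ⊆ N (rectangle), so
A(s,v) ≥ ∑_{x∈X} exp t(s,x), C(y,x) ≥ ∑_{s∈S} exp(-t(s,x)); `lehman` gives ≤ 1; zero unless (y,v) ∈ Es. -/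
theorem rect (g : V → V → Prop) (T1 T2 : Finset (V × V)) (t : V × V → ℝ) :
    ∑ c ∈ Ns T1 T2, P (Bs g T1 T2) (nb g T1 T2) t c * P (Cs g T1 T2) (nc g T1 T2) (fun c => - t c) c
      ≤ ((Es g T1 T2).card : ℝ) := by
  sorry

end Crest.Agent.R57F
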