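import Crest.Agent.R57.FAbs
import Crest.Agent.R57.FRect
import Crest.Agent.R57.FOptim
import Crest.Agent.R57.FCount

set_option autoImplicit false
set_option linter.unusedSectionVars false

namespace Crest.Agent.R57F

open Finset
open scoped Classical

variable {V : Type*} [Fintype V]

/-- alpha ≤ beta -/
theorem ab (g : V → V → Prop) (hr : ∀ a, g a a) (ha : ∀ a b, g a b → g b a → a = b) :
    ∃ X1 X2 : Finset (V × V), (∀ a, (a, a) ∈ X1) ∧ (∀ a, (a, a) ∈ X2) ∧
      Feas g (dl g X1) (dl g X2) ∧ kk g X1 + kk g X2 ≤ kk g (dl g X1) + kk g (dl g X2) := by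
  let F : Finset (Finset (V × V) × Finset (V × V)) := univ.filter (fun q => Feas g q.1 q.2)
  have hF : F.Nonempty := by
    refine ⟨(univ.filter (fun p => g p.1 p.2), univ.filter (fun p => g p.1 p.2)), ?_⟩
    simp only [F, mem_filter, mem_univ, true_and, Feas]
    exact ⟨fun _ _ h => h, fun _ _ h => h, ha⟩
  obtain ⟨⟨T1, T2⟩, hT, hmin⟩ := F.exists_min_image (fun q => kk g q.1 + kk g q.2) hF
  have hT' : Feas g T1 T2 := by simpa [F] using hT
  have hm : ∀ U1 U2, Feas g U1 U2 → kk g T1 + kk g T2 ≤ kk g U1 + kk g U2 := fun U1 U2 hU =>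
    hmin (U1, U2) (by simpa [F] using hU)
  have h1 := hallB g T1 T2 hT' (fun T h => by have := hm T T2 h; linarith)
  have h2 := hallC g T1 T2 hT' (fun T h => by have := hm T1 T h; linarith)
  have h3 := abs_ineq (Ns T1 T2) (Bs g T1 T2) (Cs g T1 T2) (nb g T1 T2) (nc g T1 T2)
    (fun j hj => by
      simp only [Bs, mem_filter] at hj
      obtain ⟨-, -, x, hx, hN⟩ := hj
      exact ⟨(j.1, x), by simp only [nb, mem_filter]; exact ⟨hN, trivial, hx⟩⟩)
    (fun j hj => by
      simp only [Cs, mem_filter] at hj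
      obtain ⟨-, -, s, hs, hN⟩ := hj
      exact ⟨(s, j.2), by simp only [nc, mem_filter]; exact ⟨hN, trivial, hs⟩⟩)
    (fun j _ => filter_subset _ _) (fun j _ => filter_subset _ _)
    (fun M hM => by convert h1 M hM) (fun M hM => by convert h2 M hM) _ (rect g T1 T2)
  have h4 := count g hr ha T1 T2 hT'
  have h5 := adm g hr ha T1 T2 hT'
  refine ⟨er g T1, er g T2, fun a => by simp [er], fun a => by simp [er], h5, ?_⟩
  have := hm _ _ h5
  linarith

end Crest.Agent.R57F
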