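import Crest.Agent.R57.FDef

set_option autoImplicit false
set_option linter.unusedSectionVars false

namespace Crest.Agent.R57F

open Finset
open scoped Classical

/-- Plan: minimise J t = ∑ j∈B, log ∑ exp t + ∑ k∈C, log ∑ exp (-t) + ε/2 ∑ t^2 (continuous, coercive:
each log ≥ -‖t‖); at the minimiser differentiate u ↦ J (Function.update t i u) (IsLocalMin.hasDerivAt_eq_zero). -/
theorem exists_bal {ι β γ : Type*} [Fintype ι] (B : Finset β) (C : Finset γ)
    (nb : β → Finset ι) (nc : γ → Finset ι)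
    (hb : ∀ j ∈ B, (nb j).Nonempty) (hc : ∀ k ∈ C, (nc k).Nonempty) (ε : ℝ) (hε : 0 < ε) :
    ∃ t : ι → ℝ, ∀ i, P B nb t i - P C nc (fun i => - t i) i + ε * t i = 0 := by
  sorry

end Crest.Agent.R57F
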