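import Mathlib

namespace Crest.Agent.R57Gen5

open Classical in
theorem exists_generic (V : Type*) [Fintype V] [DecidableEq V] (r : V → V → Prop) :
    ∃ M : V → V → ℝ, (∀ a b, ¬ r a b → M a b = 0) ∧
      ∀ A B : Finset V,
        (∀ S ⊆ A, S.card ≤ (B.filter fun b => ∃ a ∈ S, r a b).card) →
        ∀ s : V → ℝ, (∀ a, a ∉ A → s a = 0) → (∀ b ∈ B, ∑ a, s a * M a b = 0) →
          ∀ a, s a = 0 := by
  let P : (Σ A : Finset V, (A → V)) → MvPolynomial (V × V) ℝ := fun i =>
    if Function.Injective i.2 ∧ ∀ a, r a.1 (i.2 a) then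
      (Matrix.of fun a a' : i.1 =>
        if r a.1 (i.2 a') then (MvPolynomial.X (a.1, i.2 a') : MvPolynomial (V × V) ℝ) else 0).det
    else 1
  have hev : ∀ (x : V × V → ℝ) (A : Finset V) (f : A → V),
      MvPolynomial.eval x (Matrix.of fun a a' : A =>
        if r a.1 (f a') then (MvPolynomial.X (a.1, f a') : MvPolynomial (V × V) ℝ) else 0).det
      = (Matrix.of fun a a' : A => if r a.1 (f a') then x (a.1, f a') else 0).det := by
    intro x A f
    rw [RingHom.map_det]
    congr 1
    ext a a'
    simp only [RingHom.mapMatrix_apply, Matrix.map_apply, Matrix.of_apply]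
    split_ifs <;> simp
  have hP : ∀ i, P i ≠ 0 := by
    rintro ⟨A, f⟩
    simp only [P]
    split_ifs with h
    · intro h0
      have h1 := hev (fun p => if ∃ a : A, p = (a.1, f a) then 1 else 0) A f
      rw [h0, map_zero] at h1
      have h2 : (Matrix.of fun a a' : A => if r a.1 (f a') then
          (fun p : V × V => if ∃ a : A, p = (a.1, f a) then (1 : ℝ) else 0) (a.1, f a') else 0)
          = 1 := by
        ext a a'
        simp only [Matrix.of_apply, Matrix.one_apply]
        by_cases hh : a = a'
        · subst hh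
          rw [if_pos (h.2 a), if_pos ⟨a, rfl⟩, if_pos rfl]
        · rw [if_neg hh]
          split_ifs with h3 h4
          · obtain ⟨c, hc⟩ := h4
            have h5 := Prod.ext_iff.1 hc
            exact absurd ((Subtype.ext h5.1).trans (h.1 h5.2).symm) hh
          · rfl
          · rfl
      rw [h2, Matrix.det_one] at h1
      exact zero_ne_one h1
    · exact one_ne_zero
  have hprod : (∏ i, P i) ≠ 0 := Finset.prod_ne_zero_iff.2 fun i _ => hP i
  obtain ⟨x, hx⟩ : ∃ x : V × V → ℝ, MvPolynomial.eval x (∏ i, P i) ≠ 0 := by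
    by_contra hc
    push Not at hc
    exact hprod (MvPolynomial.funext fun x => by rw [hc x, map_zero])
  refine ⟨fun a b => if r a b then x (a, b) else 0, fun a b h => if_neg h, ?_⟩
  intro A B hH s hs hB
  obtain ⟨f, hf, hf2⟩ := (Finset.all_card_le_biUnion_card_iff_exists_injective
    (fun a : A => B.filter fun b => r a.1 b)).1 (by
      intro T
      have h1 := hH (T.map (Function.Embedding.subtype _)) (by
        intro a ha
        obtain ⟨c, -, rfl⟩ := Finset.mem_map.1 ha
        exact c.2)
      rw [Finset.card_map] at h1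
      refine h1.trans (Finset.card_le_card ?_)
      intro b hb
      obtain ⟨hb1, a, ha, hr⟩ := Finset.mem_filter.1 hb
      obtain ⟨c, hc, rfl⟩ := Finset.mem_map.1 ha
      exact Finset.mem_biUnion.2 ⟨c, hc, Finset.mem_filter.2 ⟨hb1, hr⟩⟩)
  have hr : ∀ a : A, r a.1 (f a) := fun a => (Finset.mem_filter.1 (hf2 a)).2
  have hb : ∀ a : A, f a ∈ B := fun a => (Finset.mem_filter.1 (hf2 a)).1
  have hd : (Matrix.of fun a a' : A => if r a.1 (f a') then x (a.1, f a') else 0).det ≠ 0 := by
    rw [map_prod] at hx
    have h1 := Finset.prod_ne_zero_iff.1 hx ⟨A, f⟩ (Finset.mem_univ _)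
    simp only [P] at h1
    rw [if_pos ⟨hf, hr⟩, hev] at h1
    exact h1
  have hz : (fun a : A => s a.1) = 0 := by
    apply Matrix.eq_zero_of_vecMul_eq_zero hd
    funext a'
    have h1 := hB (f a') (hb a')
    simp only [Matrix.vecMul, dotProduct, Matrix.of_apply, Pi.zero_apply]
    refine Eq.trans ?_ h1
    rw [Finset.sum_coe_sort A (fun a => s a * if r a (f a') then x (a, f a') else 0)]
    apply Finset.sum_subset (Finset.subset_univ _)
    intro a _ ha
    rw [hs a ha, zero_mul]
  intro a
  by_cases ha : a ∈ A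
  · exact congrFun hz ⟨a, ha⟩
  · exact hs a ha

end Crest.Agent.R57Gen5
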