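import Crest.Agent.R57.KDefs

set_option autoImplicit false
set_option linter.unusedSectionVars false

namespace Crest.Agent.R57

open Finset

variable {V : Type*} [Fintype V] [DecidableEq V]

/-- layer-cake form of Hall's condition (induction on the support of `p`: subtract the least
positive value). -/
theorem cake {w : V → ℝ} (hw : ∀ v, 0 < w v) (N : V → Finset V) (X0 V0 : Finset V)
    (hall : ∀ X ⊆ X0, W w X ≤ W w (V0.filter (fun v => ∃ x ∈ X, v ∈ N x)))
    (p q : V → ℝ) (hp : ∀ x ∈ X0, 0 ≤ p x) (hq : ∀ v ∈ V0, 0 ≤ q v)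
    (hpq : ∀ x ∈ X0, ∀ v ∈ V0, v ∈ N x → p x ≤ q v) :
    ∑ x ∈ X0, w x * p x ≤ ∑ v ∈ V0, w v * q v := by
  induction X0 using Finset.strongInduction generalizing p q with
  | H X0 ih =>
  rcases X0.eq_empty_or_nonempty with rfl | hN
  · simp only [sum_empty]
    exact sum_nonneg fun v hv => mul_nonneg (hw v).le (hq v hv)
  obtain ⟨x0, hx0, hmin⟩ := exists_min_image X0 p hN
  have h1 := ih (X0.erase x0) (erase_ssubset hx0)
    (fun X hX => hall X (hX.trans (erase_subset _ _))) (fun x => p x - p x0)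
    (fun v => q v - if (∃ x ∈ X0, v ∈ N x) then p x0 else 0)
    (fun x hx => sub_nonneg.2 (hmin x (mem_of_mem_erase hx)))
    (by
      intro v hv
      split_ifs with h
      · obtain ⟨x, hx, hvx⟩ := h
        have := hpq x hx v hv hvx
        have := hmin x hx
        linarith
      · have := hq v hv; linarith)
    (by
      intro x hx v hv hvx
      rw [if_pos ⟨x, mem_of_mem_erase hx, hvx⟩]
      have := hpq x (mem_of_mem_erase hx) v hv hvx
      linarith)
  have h2 := mul_le_mul_of_nonneg_left (hall X0 Subset.rfl) (hp x0 hx0)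
  have e1 : ∑ x ∈ X0.erase x0, w x * (p x - p x0) = ∑ x ∈ X0, w x * p x - p x0 * W w X0 := by
    rw [sum_erase _ (by simp), W, mul_sum, ← sum_sub_distrib]
    exact sum_congr rfl fun x _ => by ring
  have e2 : ∑ v ∈ V0, w v * (q v - if (∃ x ∈ X0, v ∈ N x) then p x0 else 0)
      = ∑ v ∈ V0, w v * q v - p x0 * W w (V0.filter (fun v => ∃ x ∈ X0, v ∈ N x)) := by
    rw [W, sum_filter, mul_sum, ← sum_sub_distrib]
    refine sum_congr rfl fun x _ => ?_
    split_ifs <;> ring
  rw [e1, e2] at h1
  linarith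

end Crest.Agent.R57
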