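import Crest.Agent.R57.Basic

set_option autoImplicit false
set_option linter.unusedSectionVars false

namespace Crest.Agent.R57

open Finset

variable {V : Type*} [Fintype V] [DecidableEq V]

/-- band families -/
def Band (A P : V → Finset V) : Prop :=
  ∀ v, v ∈ P v ∧ ∀ z ∈ P v, z ≠ v → v ∉ G A (G A {z})

/-- product measure of a relation given by its rows -/
def M (w : V → ℝ) (P : V → Finset V) : ℝ := ∑ v, w v * W w (P v)

/-- overlap -/
def Ov (A P Q : V → Finset V) (x : V) : Finset V :=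
  univ.filter (fun t => t ≠ x ∧ (∃ v ∈ G A {x}, t ∈ P v) ∧ ∃ z ∈ G A {t}, x ∈ Q z)

/-- energy -/
def En (A : V → Finset V) (w : V → ℝ) (P Q : V → Finset V) : ℝ :=
  M w (Ov A P Q) - M w P - M w Q

/-- the part of `P` that is removed -/
def Rm (A P Q : V → Finset V) (v : V) : Finset V :=
  (P v).filter (fun t => t ≠ v ∧ ∃ x, v ∈ G A {x} ∧ t ∈ Ov A P Q x)

/-- the other corner -/
def Os (A P Q : V → Finset V) (v : V) : Finset V :=
  univ.filter (fun z => z ≠ v ∧ z ∈ G A (P v) ∧ v ∈ G A (Q z))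

/-- Hall condition in every column of the overlap -/
def HallC (A : V → Finset V) (w : V → ℝ) (P Q : V → Finset V) : Prop :=
  ∀ (t : V) (X : Finset V), (∀ x ∈ X, t ∈ Ov A P Q x) →
    W w X ≤ W w (univ.filter (fun v => t ∈ Rm A P Q v ∧ ∃ x ∈ X, v ∈ G A {x}))

lemma mem_Ov {A P Q : V → Finset V} {x t : V} : t ∈ Ov A P Q x ↔
    t ≠ x ∧ (∃ v ∈ G A {x}, t ∈ P v) ∧ ∃ z ∈ G A {t}, x ∈ Q z := by simp [Ov]

lemma mem_Rm {A P Q : V → Finset V} {v t : V} : t ∈ Rm A P Q v ↔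
    t ∈ P v ∧ t ≠ v ∧ ∃ x, v ∈ G A {x} ∧ t ∈ Ov A P Q x := by simp [Rm]

lemma mem_Os {A P Q : V → Finset V} {v z : V} : z ∈ Os A P Q v ↔
    z ≠ v ∧ z ∈ G A (P v) ∧ v ∈ G A (Q z) := by simp [Os]

lemma Ov_symm {A P Q : V → Finset V} {x t : V} : t ∈ Ov A P Q x ↔ x ∈ Ov A Q P t := by
  rw [mem_Ov, mem_Ov]
  exact ⟨fun h => ⟨h.1.symm, h.2.2, h.2.1⟩, fun h => ⟨h.1.symm, h.2.2, h.2.1⟩⟩

lemma mem_G' {A : V → Finset V} {S : Finset V} {y : V} :
    y ∈ G A S ↔ ∃ x ∈ S, y ∈ G A {x} := by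
  simp only [mem_G, mem_singleton]
  constructor
  · rintro (h | ⟨x, hx, h⟩)
    · exact ⟨y, h, Or.inl rfl⟩
    · exact ⟨x, hx, Or.inr ⟨x, rfl, h⟩⟩
  · rintro ⟨x, hx, rfl | ⟨x', rfl, h⟩⟩
    · exact Or.inl hx
    · exact Or.inr ⟨_, hx, h⟩

lemma self_mem_G (A : V → Finset V) (x : V) : x ∈ G A {x} := subset_G A _ (mem_singleton_self x)

lemma mem_GG {A : V → Finset V} {x y z : V} (h1 : y ∈ G A {x}) (h2 : z ∈ G A {y}) :
    z ∈ G A (G A {x}) := mem_G'.2 ⟨y, h1, h2⟩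

lemma Ori.antisymm {A : V → Finset V} (h : Ori A) {x y : V} (h1 : y ∈ G A {x})
    (h2 : x ∈ G A {y}) : x = y := by
  rcases mem_G_single.1 h1 with e | h1
  · exact e.symm
  rcases mem_G_single.1 h2 with e | h2
  · exact e
  exact absurd h2 (h.2 _ _ h1)

lemma M_eq (w : V → ℝ) (P : V → Finset V) :
    M w P = ∑ v, ∑ z, if z ∈ P v then w v * w z else 0 := by
  unfold M
  refine sum_congr rfl fun v _ => ?_
  rw [W_eq, mul_sum]
  refine sum_congr rfl fun z _ => ?_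
  split_ifs <;> simp

lemma M_transpose (w : V → ℝ) {R R' : V → Finset V} (h : ∀ x t, t ∈ R x ↔ x ∈ R' t) :
    M w R = M w R' := by
  rw [M_eq, M_eq, sum_comm]
  refine sum_congr rfl fun v _ => sum_congr rfl fun z _ => ?_
  simp only [h, mul_comm]

lemma En_symm (A : V → Finset V) (w : V → ℝ) (P Q : V → Finset V) :
    En A w P Q = En A w Q P := by
  unfold En
  rw [M_transpose w (R := Ov A P Q) (R' := Ov A Q P) (fun _ _ => Ov_symm)]
  ring

end Crest.Agent.R57
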