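import Crest.Agent.R57.KDefs

set_option autoImplicit false
set_option linter.unusedSectionVars false

namespace Crest.Agent.R57

open Finset

variable {V : Type*} [Fintype V] [DecidableEq V]

lemma kend_disj {A : V → Finset V} (hA : Ori A) {P Q : V → Finset V} (hP : Band A P)
    (hQ : Band A Q) {v z : V} (hne : z ≠ v) (h1 : z ∈ G A (P v \ Rm A P Q v)) :
    v ∉ G A (Q z) := by
  intro h2
  obtain ⟨t, ht, hzt⟩ := mem_G'.1 h1
  obtain ⟨x, hx, hvx⟩ := mem_G'.1 h2
  obtain ⟨htP, htR⟩ := mem_sdiff.1 ht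
  by_cases htv : t = v
  · subst htv
    by_cases hxz : x = z
    · subst hxz
      exact hne (hA.antisymm hvx hzt)
    · exact (hQ z).2 x hx hxz (mem_GG hvx hzt)
  · apply htR
    refine mem_Rm.2 ⟨htP, htv, x, hvx, mem_Ov.2 ⟨?_, ⟨v, hvx, htP⟩, z, hzt, hx⟩⟩
    rintro rfl
    exact (hP v).2 t htP htv (subset_G A _ hvx)

lemma kend_gap {A : V → Finset V} (hA : Ori A) {Q1 : V → Finset V} (hQ : Band A Q1)
    {x t v : V} (hne : t ≠ x) (hv : v ∈ G A {x})
    (ht : t = v ∨ v ∉ G A (G A (Q1 t))) : x ∉ G A (Q1 t) := by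
  intro hx
  rcases ht with rfl | ht
  · obtain ⟨q, hq, hxq⟩ := mem_G'.1 hx
    by_cases hqt : q = t
    · subst hqt
      exact hne (hA.antisymm hxq hv)
    · exact (hQ t).2 q hq hqt (mem_GG hxq hv)
  · exact ht (mem_G'.2 ⟨x, hx, hv⟩)

lemma M_sdiff_add (w : V → ℝ) {P R : V → Finset V} (h : ∀ v, R v ⊆ P v) :
    M w P = M w (fun v => P v \ R v) + M w R := by
  unfold M
  rw [← sum_add_distrib]
  refine sum_congr rfl fun v _ => ?_
  rw [W_sdiff (h v)]; ring

lemma M_eq' (w : V → ℝ) (P : V → Finset V) :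
    M w P = ∑ v, ∑ z, if v ∈ P z then w v * w z else 0 := by
  rw [M_eq, sum_comm]
  refine sum_congr rfl fun v _ => sum_congr rfl fun z _ => ?_
  simp only [mul_comm]

theorem end_ineq {A : V → Finset V} {w : V → ℝ} (hw : ∀ v, 0 < w v) (hA : Ori A)
    {P Q : V → Finset V} (hP : Band A P) (hQ : Band A Q)
    (hmin : ∀ P' Q', Band A P' → Band A Q' → En A w P Q ≤ En A w P' Q')
    (hprod : M w (Rm A P Q) + M w (Rm A Q P) ≤ M w (Ov A P Q) + M w (Os A P Q)) :
    ∑ v, w v * phi A w (P v \ Rm A P Q v) + ∑ z, w z * phi A w (Q z \ Rm A Q P z) ≤ 0 := by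
  classical
  set P1 : V → Finset V := fun v => P v \ Rm A P Q v with hP1
  set Q1 : V → Finset V := fun v => Q v \ Rm A Q P v with hQ1
  have bP1 : Band A P1 := fun v =>
    ⟨mem_sdiff.2 ⟨(hP v).1, fun h => (mem_Rm.1 h).2.1 rfl⟩,
      fun z hz => (hP v).2 z (mem_sdiff.1 hz).1⟩
  have bQ1 : Band A Q1 := fun v =>
    ⟨mem_sdiff.2 ⟨(hQ v).1, fun h => (mem_Rm.1 h).2.1 rfl⟩,
      fun z hz => (hQ v).2 z (mem_sdiff.1 hz).1⟩
  let P2 : V → Finset V := fun v => univ.filter (fun z => z = v ∨ v ∉ G A (G A (Q1 z)))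
  let Q2 : V → Finset V := fun v => univ.filter (fun z => z = v ∨ v ∉ G A (G A (P1 z)))
  have mP2 : ∀ v z, z ∈ P2 v ↔ z = v ∨ v ∉ G A (G A (Q1 z)) := fun v z => by simp [P2]
  have mQ2 : ∀ v z, z ∈ Q2 v ↔ z = v ∨ v ∉ G A (G A (P1 z)) := fun v z => by simp [Q2]
  have bP2 : Band A P2 := fun v => ⟨(mP2 v v).2 (Or.inl rfl), fun z hz hne h =>
    ((mP2 v z).1 hz).elim hne (fun h' => h' (G_mono A (G_mono A
      (singleton_subset_iff.2 (bQ1 z).1)) h))⟩
  have bQ2 : Band A Q2 := fun v => ⟨(mQ2 v v).2 (Or.inl rfl), fun z hz hne h =>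
    ((mQ2 v z).1 hz).elim hne (fun h' => h' (G_mono A (G_mono A
      (singleton_subset_iff.2 (bP1 z).1)) h))⟩
  have hE := hmin P2 Q2 bP2 bQ2
  unfold En at hE
  have e1 : M w P = M w P1 + M w (Rm A P Q) := M_sdiff_add w (fun v => filter_subset _ _)
  have e2 : M w Q = M w Q1 + M w (Rm A Q P) := M_sdiff_add w (fun v => filter_subset _ _)
  have f1 : ∀ R : V → Finset V, ∑ v, w v * phi A w (R v) =
      2 * M w (fun v => G A (R v)) - M w R - M w (fun v => G A (G A (R v))) := by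
    intro R
    unfold M phi
    rw [mul_sum, ← sum_sub_distrib, ← sum_sub_distrib]
    exact sum_congr rfl fun v _ => by ring
  have key : 2 * M w (fun v => G A (P1 v)) + 2 * M w (fun v => G A (Q1 v)) + M w (Os A P Q)
      + M w (Ov A P2 Q2) ≤ M w P2 + M w (fun v => G A (G A (Q1 v))) + M w Q2
        + M w (fun v => G A (G A (P1 v))) := by
    rw [M_eq w (fun v => G A (P1 v)), M_eq' w (fun v => G A (Q1 v)), M_eq w (Os A P Q),
      M_eq w (Ov A P2 Q2), M_eq w P2, M_eq' w (fun v => G A (G A (Q1 v))), M_eq' w Q2,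
      M_eq w (fun v => G A (G A (P1 v)))]
    simp only [mul_sum, ← sum_add_distrib]
    refine sum_le_sum fun v _ => sum_le_sum fun z _ => ?_
    have h0 : 0 < w v * w z := mul_pos (hw v) (hw z)
    by_cases hvz : z = v
    · subst hvz
      have a1 : z ∈ G A (P1 z) := subset_G A _ (bP1 z).1
      have a2 : z ∈ G A (Q1 z) := subset_G A _ (bQ1 z).1
      have a3 : z ∉ Os A P Q z := fun h => (mem_Os.1 h).1 rfl
      have a4 : z ∉ Ov A P2 Q2 z := fun h => (mem_Ov.1 h).1 rfl
      have a5 : z ∈ G A (G A (P1 z)) := subset_G A _ a1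
      have a6 : z ∈ G A (G A (Q1 z)) := subset_G A _ a2
      rw [if_pos a1, if_pos a2, if_neg a3, if_neg a4, if_pos (bP2 z).1, if_pos (bQ2 z).1,
        if_pos a5, if_pos a6]
      linarith
    · have r1 : (if z ∈ P2 v then w v * w z else 0) +
          (if v ∈ G A (G A (Q1 z)) then w v * w z else 0) = w v * w z := by
        by_cases h : v ∈ G A (G A (Q1 z))
        · rw [if_pos h, if_neg (fun h' => ((mP2 v z).1 h').elim hvz (fun h'' => h'' h))]; ring
        · rw [if_neg h, if_pos ((mP2 v z).2 (Or.inr h))]; ring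
      have r2 : (if v ∈ Q2 z then w v * w z else 0) +
          (if z ∈ G A (G A (P1 v)) then w v * w z else 0) = w v * w z := by
        by_cases h : z ∈ G A (G A (P1 v))
        · rw [if_pos h, if_neg (fun h' => ((mQ2 z v).1 h').elim (fun e => hvz e.symm)
            (fun h'' => h'' h))]; ring
        · rw [if_neg h, if_pos ((mQ2 z v).2 (Or.inr h))]; ring
      have d1 : z ∈ G A (P1 v) → v ∉ G A (Q z) := kend_disj hA hP hQ hvz
      have d2 : v ∈ G A (Q1 z) → z ∉ G A (P v) := kend_disj hA hQ hP (fun e => hvz e.symm)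
      have s1 : G A (P1 v) ⊆ G A (P v) := G_mono A sdiff_subset
      have s2 : G A (Q1 z) ⊆ G A (Q z) := G_mono A sdiff_subset
      have g1 : z ∈ Ov A P2 Q2 v → v ∉ G A (Q1 z) := fun h => by
        obtain ⟨hne, ⟨u, hu, hz⟩, -⟩ := mem_Ov.1 h
        exact kend_gap hA bQ1 hne hu ((mP2 u z).1 hz)
      have g2 : z ∈ Ov A P2 Q2 v → z ∉ G A (P1 v) := fun h => by
        obtain ⟨hne, -, u, hu, hz⟩ := mem_Ov.1 h
        exact kend_gap hA bP1 hne.symm hu ((mQ2 u v).1 hz)
      have l : 2 * (if z ∈ G A (P1 v) then w v * w z else 0) +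
          2 * (if v ∈ G A (Q1 z) then w v * w z else 0) +
          (if z ∈ Os A P Q v then w v * w z else 0) +
          (if z ∈ Ov A P2 Q2 v then w v * w z else 0) ≤ 2 * (w v * w z) := by
        by_cases c1 : z ∈ G A (P1 v)
        · rw [if_pos c1, if_neg (fun h => d1 c1 (s2 h)),
            if_neg (fun h => d1 c1 (mem_Os.1 h).2.2), if_neg (fun h => g2 h c1)]
          linarith
        · by_cases c2 : v ∈ G A (Q1 z)
          · rw [if_neg c1, if_pos c2, if_neg (fun h => d2 c2 (mem_Os.1 h).2.1),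
              if_neg (fun h => g1 h c2)]
            linarith
          · rw [if_neg c1, if_neg c2]
            split_ifs <;> linarith
      linarith
  have g1 := f1 P1
  have g2 := f1 Q1
  simp only [hP1, hQ1] at g1 g2
  simp only [hP1, hQ1] at key e1 e2
  linarith

end Crest.Agent.R57
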