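import Crest.Agent.R57.KDefs

set_option autoImplicit false
set_option linter.unusedSectionVars false

namespace Crest.Agent.R57

open Finset

variable {V : Type*} [Fintype V] [DecidableEq V]

/-- fair levels: peel off a subset of minimal ratio (strong induction on `T0.card`,
generalizing `Z0`, `ρ`). -/
theorem fair {w : V → ℝ} (hw : ∀ v, 0 < w v) (N : V → Finset V) (T0 Z0 : Finset V) (ρ : ℝ)
    (hcov : ∀ z ∈ Z0, ∃ t ∈ T0, z ∈ N t)
    (hall : ∀ T ⊆ T0, ρ * W w T ≤ W w (Z0.filter (fun z => ∃ t ∈ T, z ∈ N t))) :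
    ∃ lam : V → ℝ, (∀ t ∈ T0, ρ ≤ lam t) ∧ W w Z0 ≤ ∑ t ∈ T0, w t * lam t ∧
      ∀ T ⊆ T0, ∑ t ∈ T, w t * lam t ≤
        W w (Z0.filter (fun z => ∃ t ∈ T, z ∈ N t ∧ ∀ t' ∈ T0, z ∈ N t' → lam t ≤ lam t')) := by
  classical
  induction hn : T0.card using Nat.strong_induction_on generalizing T0 Z0 ρ with
  | _ n ih =>
  have hWn : ∀ {S S' : Finset V}, S ⊆ S' → W w S ≤ W w S' := fun h =>
    sum_le_sum_of_subset_of_nonneg h fun i _ _ => (hw i).le
  rcases T0.eq_empty_or_nonempty with rfl | hne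
  · have hZ : Z0 = ∅ := by
      rw [eq_empty_iff_forall_notMem]
      intro z hz
      obtain ⟨t, ht, -⟩ := hcov z hz
      exact notMem_empty _ ht
    subst hZ
    refine ⟨fun _ => ρ, by simp, by simp [W], ?_⟩
    intro T hT
    have : T = ∅ := subset_empty.1 hT
    subst this
    simp [W]
  have hP : (T0.powerset.filter (fun T => T.Nonempty)).Nonempty := ⟨T0, by simp [hne]⟩
  obtain ⟨T1, hT1, hmin⟩ := exists_min_image _
    (fun T => W w (Z0.filter (fun z => ∃ t ∈ T, z ∈ N t)) / W w T) hP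
  rw [mem_filter, mem_powerset] at hT1
  have hpos : ∀ T : Finset V, T.Nonempty → 0 < W w T := fun T hT =>
    sum_pos (fun i _ => hw i) hT
  set Z1 := Z0.filter (fun z => ∃ t ∈ T1, z ∈ N t) with hZ1
  set r := W w Z1 / W w T1 with hr
  have hr1 : r * W w T1 = W w Z1 := div_mul_cancel₀ _ (hpos T1 hT1.2).ne'
  have hrρ : ρ ≤ r := by
    rw [hr, le_div_iff₀ (hpos T1 hT1.2)]
    exact hall T1 hT1.1
  have hrT : ∀ T ⊆ T0, r * W w T ≤ W w (Z0.filter (fun z => ∃ t ∈ T, z ∈ N t)) := by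
    intro T hT
    rcases T.eq_empty_or_nonempty with rfl | hTn
    · simp [W]
    · have := hmin T (by rw [mem_filter, mem_powerset]; exact ⟨hT, hTn⟩)
      rwa [le_div_iff₀ (hpos T hTn)] at this
  have hcard : (T0 \ T1).card < n := by
    rw [← hn]
    obtain ⟨a, ha⟩ := hT1.2
    exact card_lt_card ⟨sdiff_subset, fun h => (mem_sdiff.1 (h (hT1.1 ha))).2 ha⟩
  obtain ⟨lam, h1, h2, h3⟩ := ih _ hcard (T0 \ T1) (Z0 \ Z1) r (by
      intro z hz
      obtain ⟨hz0, hz1⟩ := mem_sdiff.1 hz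
      obtain ⟨t, ht, hzt⟩ := hcov z hz0
      refine ⟨t, mem_sdiff.2 ⟨ht, fun h => hz1 ?_⟩, hzt⟩
      exact mem_filter.2 ⟨hz0, t, h, hzt⟩) (by
      intro T hT
      have hTT : T ∪ T1 ⊆ T0 := union_subset (hT.trans sdiff_subset) hT1.1
      have hd : Disjoint T T1 := disjoint_left.2 fun a ha hb => (mem_sdiff.1 (hT ha)).2 hb
      have e1 : W w (T ∪ T1) = W w T + W w T1 := sum_union hd
      have h4 := hrT _ hTT
      have e2 : W w (Z0.filter (fun z => ∃ t ∈ T ∪ T1, z ∈ N t)) ≤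
          W w ((Z0 \ Z1).filter (fun z => ∃ t ∈ T, z ∈ N t)) + W w Z1 := by
        have hd2 : Disjoint ((Z0 \ Z1).filter (fun z => ∃ t ∈ T, z ∈ N t)) Z1 :=
          disjoint_left.2 fun a ha hb => (mem_sdiff.1 (mem_filter.1 ha).1).2 hb
        refine (hWn (S' := (Z0 \ Z1).filter (fun z => ∃ t ∈ T, z ∈ N t) ∪ Z1) ?_).trans
          (sum_union hd2).le
        intro z hz
        obtain ⟨hz0, t, ht, hzt⟩ := mem_filter.1 hz
        by_cases hz1 : z ∈ Z1
        · exact mem_union_right _ hz1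
        · refine mem_union_left _ (mem_filter.2 ⟨mem_sdiff.2 ⟨hz0, hz1⟩, t, ?_, hzt⟩)
          rcases mem_union.1 ht with h | h
          · exact h
          · exact absurd (mem_filter.2 ⟨hz0, t, h, hzt⟩) hz1
      rw [e1, mul_add, hr1] at h4
      linarith) rfl
  have hsplit : ∀ T : Finset V, ∑ t ∈ T, w t * (if t ∈ T1 then r else lam t) =
      r * W w (T ∩ T1) + ∑ t ∈ T \ T1, w t * lam t := by
    intro T
    rw [← sum_inter_add_sum_sdiff T T1, W, mul_sum]
    congr 1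
    · exact sum_congr rfl fun t ht => by rw [if_pos (mem_inter.1 ht).2, mul_comm]
    · exact sum_congr rfl fun t ht => by rw [if_neg (mem_sdiff.1 ht).2]
  have hge : ∀ t ∈ T0, r ≤ (if t ∈ T1 then r else lam t) := by
    intro t ht
    split_ifs with h
    · exact le_rfl
    · exact h1 t (mem_sdiff.2 ⟨ht, h⟩)
  refine ⟨fun t => if t ∈ T1 then r else lam t, fun t ht => hrρ.trans (hge t ht), ?_, ?_⟩
  · rw [hsplit, inter_eq_right.2 hT1.1, hr1]
    have e : W w (Z0 \ Z1) + W w Z1 = W w Z0 := sum_sdiff (filter_subset _ _)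
    linarith
  · intro T hT
    rw [hsplit]
    have h4 := hrT (T ∩ T1) (inter_subset_left.trans hT)
    have h5 := h3 (T \ T1) (sdiff_subset_sdiff hT Subset.rfl)
    have hd : Disjoint (Z0.filter (fun z => ∃ t ∈ T ∩ T1, z ∈ N t))
        ((Z0 \ Z1).filter (fun z => ∃ t ∈ T \ T1, z ∈ N t ∧
          ∀ t' ∈ T0 \ T1, z ∈ N t' → lam t ≤ lam t')) := by
      refine disjoint_left.2 fun a ha hb => (mem_sdiff.1 (mem_filter.1 hb).1).2 ?_
      obtain ⟨ha0, t, ht, hat⟩ := mem_filter.1 ha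
      exact mem_filter.2 ⟨ha0, t, (mem_inter.1 ht).2, hat⟩
    refine (add_le_add h4 h5).trans ((sum_union hd).symm.le.trans (hWn ?_))
    intro z hz
    rcases mem_union.1 hz with hz | hz
    · obtain ⟨hz0, t, ht, hzt⟩ := mem_filter.1 hz
      refine mem_filter.2 ⟨hz0, t, (mem_inter.1 ht).1, hzt, fun t' ht' _ => ?_⟩
      have := hge t' ht'
      beta_reduce
      rwa [if_pos (mem_inter.1 ht).2]
    · obtain ⟨hz0, t, ht, hzt, hm⟩ := mem_filter.1 hz
      obtain ⟨hz0, hz1⟩ := mem_sdiff.1 hz0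
      refine mem_filter.2 ⟨hz0, t, (mem_sdiff.1 ht).1, hzt, fun t' ht' hzt' => ?_⟩
      have hn1 : t' ∉ T1 := fun h => hz1 (mem_filter.2 ⟨hz0, t', h, hzt'⟩)
      beta_reduce
      rw [if_neg (mem_sdiff.1 ht).2, if_neg hn1]
      exact hm t' (mem_sdiff.2 ⟨ht', hn1⟩) hzt'

end Crest.Agent.R57
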