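import Crest.Agent.R57.KDefs

set_option autoImplicit false
set_option linter.unusedSectionVars false

namespace Crest.Agent.R57

open Finset

variable {V : Type*} [Fintype V] [DecidableEq V]

/-- Hall's condition from minimality of the energy in `P`: remove `t` from `P v` for all
`v ≠ t` with `v ∈ G X`; the overlap loses `X × {t}`. -/
theorem hallC {A : V → Finset V} {w : V → ℝ} (hw : ∀ v, 0 < w v) (hA : Ori A)
    {P Q : V → Finset V} (hP : Band A P) (hQ : Band A Q)
    (hmin : ∀ P', Band A P' → En A w P Q ≤ En A w P' Q) : HallC A w P Q := by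
  intro t X hX
  set F : Finset V := univ.filter (fun v => t ∈ Rm A P Q v ∧ ∃ x ∈ X, v ∈ G A {x}) with hF
  let P' : V → Finset V := fun v => if v ∈ F then (P v).erase t else P v
  have hFm : ∀ v, v ∈ F ↔ t ∈ P v ∧ t ≠ v ∧ ∃ x ∈ X, v ∈ G A {x} := by
    intro v
    rw [hF, mem_filter, mem_Rm]
    constructor
    · rintro ⟨-, ⟨h1, h2, -⟩, h3⟩
      exact ⟨h1, h2, h3⟩
    · rintro ⟨h1, h2, x, hx, h3⟩
      exact ⟨mem_univ _, ⟨h1, h2, x, h3, hX x hx⟩, x, hx, h3⟩
  have hsub : ∀ v, P' v ⊆ P v := by
    intro v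
    simp only [P']
    split_ifs
    · exact erase_subset _ _
    · exact Subset.rfl
  have hB : Band A P' := by
    intro v
    refine ⟨?_, fun z hz hne => (hP v).2 z (hsub v hz) hne⟩
    simp only [P']
    split_ifs with h
    · exact mem_erase.2 ⟨((hFm v).1 h).2.1.symm, (hP v).1⟩
    · exact (hP v).1
  have h1 : M w P = M w P' + w t * W w F := by
    unfold M
    rw [W_eq w F, mul_sum, ← sum_add_distrib]
    refine sum_congr rfl fun v _ => ?_
    simp only [P']
    split_ifs with h
    · have := Finset.add_sum_erase (P v) w ((hFm v).1 h).1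
      simp only [W]
      rw [← this]; ring
    · simp
  have hO : ∀ x, Ov A P' Q x ⊆ Ov A P Q x := by
    intro x s hs
    rw [mem_Ov] at hs ⊢
    obtain ⟨a, ⟨v, hv, b⟩, c⟩ := hs
    exact ⟨a, ⟨v, hv, hsub v b⟩, c⟩
  have hN : ∀ x ∈ X, t ∉ Ov A P' Q x := by
    intro x hx hs
    rw [mem_Ov] at hs
    obtain ⟨a, ⟨v, hv, b⟩, z, hz, c⟩ := hs
    by_cases hvt : t = v
    · subst hvt
      by_cases hxz : x = z
      · subst hxz
        exact a (hA.antisymm hz hv)
      · exact (hQ z).2 x c hxz (mem_GG hv hz)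
    · have hvF : v ∈ F := (hFm v).2 ⟨hsub v b, hvt, x, hx, hv⟩
      simp only [P', if_pos hvF] at b
      exact (mem_erase.1 b).1 rfl
  have h2 : M w (Ov A P' Q) + w t * W w X ≤ M w (Ov A P Q) := by
    unfold M
    rw [W_eq w X, mul_sum, ← sum_add_distrib]
    refine sum_le_sum fun x _ => ?_
    split_ifs with h
    · have hs : Ov A P' Q x ⊆ (Ov A P Q x).erase t := by
        intro s hs
        exact mem_erase.2 ⟨fun e => hN x h (e ▸ hs), hO x hs⟩
      have e1 := W_mono (fun v => (hw v).le) hs
      have e2 := Finset.add_sum_erase (Ov A P Q x) w (hX x h)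
      simp only [W] at e1 ⊢
      rw [← e2]
      have := mul_le_mul_of_nonneg_left e1 (hw x).le
      linarith
    · have e1 := W_mono (fun v => (hw v).le) (hO x)
      have := mul_le_mul_of_nonneg_left e1 (hw x).le
      linarith
  have h3 := hmin P' hB
  unfold En at h3
  have h4 : w t * W w X ≤ w t * W w F := by linarith
  exact le_of_mul_le_mul_left h4 (hw t)

end Crest.Agent.R57
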