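import Crest.Agent.R57.KFair
import Crest.Agent.R57.KCake

set_option autoImplicit false
set_option linter.unusedSectionVars false

namespace Crest.Agent.R57

open Finset

variable {V : Type*} [Fintype V] [DecidableEq V]

lemma exists_sel (C : Finset V) (hC : C.Nonempty) (f : V → ℝ) (idx : V → ℕ) :
    ∃ x ∈ C, (∀ y ∈ C, f y ≤ f x) ∧ ∀ y ∈ C, f y = f x → idx x ≤ idx y := by
  obtain ⟨a, ha, hmax⟩ := C.exists_max_image f hC
  obtain ⟨b, hb, hmin⟩ := (C.filter (fun y => f y = f a)).exists_min_image idx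
    ⟨a, mem_filter.2 ⟨ha, rfl⟩⟩
  obtain ⟨hb1, hb2⟩ := mem_filter.1 hb
  exact ⟨b, hb1, fun y hy => hb2 ▸ hmax y hy,
    fun y hy e => hmin y (mem_filter.2 ⟨hy, e.trans hb2⟩)⟩

lemma swap_sum (R R' : V → Finset V) (h : ∀ x t, t ∈ R x ↔ x ∈ R' t) (f : V → V → ℝ) :
    ∑ x, ∑ t ∈ R x, f x t = ∑ t, ∑ x ∈ R' t, f x t := by
  refine sum_comm' ?_
  intro x t
  simp [h]

/-- the product inequality -/
theorem prod_ineq {A : V → Finset V} {w : V → ℝ} (hw : ∀ v, 0 < w v) (hA : Ori A)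
    {P Q : V → Finset V} (hP : Band A P) (hQ : Band A Q)
    (h1 : HallC A w P Q) (h2 : HallC A w Q P) :
    M w (Rm A P Q) + M w (Rm A Q P) ≤ M w (Ov A P Q) + M w (Os A P Q) := by
  classical
  set Z0 : V → Finset V := fun x => univ.filter (fun z => x ∈ Rm A Q P z) with hZ0
  have mZ0 : ∀ x z, z ∈ Z0 x ↔ x ∈ Rm A Q P z := fun x z => by simp [hZ0]
  have hf : ∀ x, ∃ lam : V → ℝ, (∀ t ∈ Ov A P Q x, 1 ≤ lam t) ∧
      W w (Z0 x) ≤ ∑ t ∈ Ov A P Q x, w t * lam t ∧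
      ∀ T ⊆ Ov A P Q x, ∑ t ∈ T, w t * lam t ≤
        W w ((Z0 x).filter (fun z => ∃ t ∈ T, z ∈ G A {t} ∧
          ∀ t' ∈ Ov A P Q x, z ∈ G A {t'} → lam t ≤ lam t')) := by
    intro x
    refine fair hw (fun t => G A {t}) (Ov A P Q x) (Z0 x) 1 ?_ ?_
    · intro z hz
      obtain ⟨-, -, t, h3, h4⟩ := mem_Rm.1 ((mZ0 x z).1 hz)
      exact ⟨t, Ov_symm.1 h4, h3⟩
    · intro T hT
      have := h2 x T (fun t ht => Ov_symm.1 (hT ht))
      rw [one_mul, hZ0]
      simp only [filter_filter]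
      exact this
  choose lam hl1 hl2 hl3 using hf
  let idx : V → ℕ := fun x => (Fintype.equivFin V x : ℕ)
  have hidx : ∀ x y, idx x = idx y → x = y := fun x y e =>
    (Fintype.equivFin V).injective (Fin.ext e)
  have hs : ∀ v t, ∃ x, t ∈ Rm A P Q v → (v ∈ G A {x} ∧ t ∈ Ov A P Q x) ∧
      (∀ y, v ∈ G A {y} → t ∈ Ov A P Q y → lam y t ≤ lam x t) ∧
      ∀ y, v ∈ G A {y} → t ∈ Ov A P Q y → lam y t = lam x t → idx x ≤ idx y := by
    intro v t
    by_cases ht : t ∈ Rm A P Q v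
    · obtain ⟨-, -, x0, hx0⟩ := mem_Rm.1 ht
      obtain ⟨x, hx, e1, e2⟩ := exists_sel
        (univ.filter (fun y => v ∈ G A {y} ∧ t ∈ Ov A P Q y)) ⟨x0, by simpa using hx0⟩
        (fun y => lam y t) idx
      refine ⟨x, fun _ => ⟨by simpa using hx, fun y a b => e1 y (by simp [a, b]),
        fun y a b => e2 y (by simp [a, b])⟩⟩
    · exact ⟨v, fun h => absurd h ht⟩
  choose sel hsel using hs
  set V0 : V → Finset V := fun t => univ.filter (fun v => t ∈ Rm A P Q v) with hV0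
  have mV0 : ∀ t v, v ∈ V0 t ↔ t ∈ Rm A P Q v := fun t v => by simp [hV0]
  -- columns
  have hcol : ∀ t, ∑ x ∈ Ov A Q P t, w x * (lam x t - 1) ≤
      ∑ v ∈ V0 t, w v * (lam (sel v t) t - 1) := by
    intro t
    refine cake hw (fun x => G A {x}) (Ov A Q P t) (V0 t) ?_ (fun x => lam x t - 1)
      (fun v => lam (sel v t) t - 1) ?_ ?_ ?_
    · intro X hX
      have := h1 t X (fun x hx => Ov_symm.1 (hX hx))
      rw [hV0]
      simp only [filter_filter]
      exact this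
    · intro x hx
      have := hl1 x t (Ov_symm.1 hx)
      linarith
    · intro v hv
      have := hl1 _ t (hsel v t ((mV0 t v).1 hv)).1.2
      linarith
    · intro x hx v hv hvx
      have := (hsel v t ((mV0 t v).1 hv)).2.1 x hvx (Ov_symm.1 hx)
      linarith
  -- rows
  have hrow : ∀ v, ∑ t ∈ Rm A P Q v, w t * lam (sel v t) t ≤ W w (Os A P Q v) := by
    intro v
    set Tx : V → Finset V := fun x => (Rm A P Q v).filter (fun t => sel v t = x) with hTx
    set Zs : V → Finset V := fun x => (Z0 x).filter (fun z => ∃ t ∈ Tx x, z ∈ G A {t} ∧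
          ∀ t' ∈ Ov A P Q x, z ∈ G A {t'} → lam x t ≤ lam x t') with hZs
    have mT : ∀ x t, t ∈ Tx x → t ∈ Rm A P Q v ∧ sel v t = x := fun x t ht => mem_filter.1 ht
    have e1 : ∑ t ∈ Rm A P Q v, w t * lam (sel v t) t = ∑ x, ∑ t ∈ Tx x, w t * lam x t := by
      rw [← sum_fiberwise (s := Rm A P Q v) (g := fun t => sel v t)]
      refine sum_congr rfl fun x _ => sum_congr rfl fun t ht => ?_
      rw [(mem_filter.1 ht).2]
    have e2 : ∀ x, ∑ t ∈ Tx x, w t * lam x t ≤ W w (Zs x) := by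
      intro x
      refine hl3 x (Tx x) fun t ht => ?_
      obtain ⟨a, b⟩ := mT x t ht
      exact b ▸ (hsel v t a).1.2
    have key : ∀ x z, z ∈ Zs x → v ∈ G A {x} ∧ x ∈ Q z ∧ x ≠ z ∧ ∃ t, t ∈ Rm A P Q v ∧
        sel v t = x ∧ z ∈ G A {t} ∧ ∀ t' ∈ Ov A P Q x, z ∈ G A {t'} → lam x t ≤ lam x t' := by
      intro x z hz
      obtain ⟨a, t, ht, b, c⟩ := mem_filter.1 hz
      obtain ⟨a1, a2, -⟩ := mem_Rm.1 ((mZ0 x z).1 a)
      obtain ⟨d1, d2⟩ := mT x t ht
      exact ⟨d2 ▸ (hsel v t d1).1.1, a1, a2, t, d1, d2, b, c⟩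
    have cross : ∀ x z t, v ∈ G A {x} → x ∈ Q z → t ∈ Rm A P Q v → z ∈ G A {t} →
        t ∈ Ov A P Q x := by
      intro x z t a b c d
      obtain ⟨c1, c2, -⟩ := mem_Rm.1 c
      refine mem_Ov.2 ⟨?_, ⟨v, a, c1⟩, z, d, b⟩
      rintro rfl
      exact (hP v).2 t c1 c2 (subset_G A _ a)
    have hdisj : ∀ x ∈ (univ : Finset V), ∀ y ∈ (univ : Finset V), x ≠ y →
        Disjoint (Zs x) (Zs y) := by
      intro x _ y _ hxy
      refine disjoint_left.2 fun z hx hy => hxy ?_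
      obtain ⟨a1, a2, -, t, a4, a5, a6, a7⟩ := key x z hx
      obtain ⟨b1, b2, -, t', b4, b5, b6, b7⟩ := key y z hy
      have c1 : t' ∈ Ov A P Q x := cross x z t' a1 a2 b4 b6
      have c2 : t ∈ Ov A P Q y := cross y z t b1 b2 a4 a6
      have d1 := a7 t' c1 b6
      have d2 := (hsel v t' b4).2.1 x a1 c1
      have d3 := b7 t c2 a6
      have d4 := (hsel v t a4).2.1 y b1 c2
      rw [b5] at d2
      rw [a5] at d4
      have f1 := (hsel v t' b4).2.2 x a1 c1 (by rw [b5]; linarith)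
      have f2 := (hsel v t a4).2.2 y b1 c2 (by rw [a5]; linarith)
      rw [b5] at f1
      rw [a5] at f2
      exact hidx x y (le_antisymm f2 f1)
    have hsub : univ.biUnion Zs ⊆ Os A P Q v := by
      intro z hz
      obtain ⟨x, -, hx⟩ := mem_biUnion.1 hz
      obtain ⟨a1, a2, a3, t, a4, -, a6, -⟩ := key x z hx
      refine mem_Os.2 ⟨?_, mem_G'.2 ⟨t, (mem_Rm.1 a4).1, a6⟩, mem_G'.2 ⟨x, a2, a1⟩⟩
      rintro rfl
      exact (hQ z).2 x a2 a3 (subset_G A _ a1)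
    have e3 : W w (univ.biUnion Zs) = ∑ x, W w (Zs x) :=
      sum_biUnion (fun x hx y hy hxy => hdisj x hx y hy hxy)
    calc _ = _ := e1
      _ ≤ ∑ x, W w (Zs x) := sum_le_sum fun x _ => e2 x
      _ = _ := e3.symm
      _ ≤ _ := W_mono (fun v => (hw v).le) hsub
  -- assembly
  have s1 : M w (Rm A Q P) = ∑ x, w x * W w (Z0 x) :=
    M_transpose w (R := Rm A Q P) (R' := Z0) (fun z x => (mZ0 x z).symm)
  have s2 : ∑ x, w x * W w (Z0 x) ≤ ∑ x, ∑ t ∈ Ov A P Q x, w x * (w t * lam x t) :=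
    sum_le_sum fun x _ => by
      rw [← mul_sum]; exact mul_le_mul_of_nonneg_left (hl2 x) (hw x).le
  have s3 : ∑ x, ∑ t ∈ Ov A P Q x, w x * (w t * lam x t) - M w (Ov A P Q) =
      ∑ t, w t * ∑ x ∈ Ov A Q P t, w x * (lam x t - 1) := by
    simp only [mul_sum]
    rw [← swap_sum (Ov A P Q) (Ov A Q P) (fun _ _ => Ov_symm)
      (fun x t => w t * (w x * (lam x t - 1)))]
    simp only [M, W, mul_sum, ← sum_sub_distrib]
    refine sum_congr rfl fun x _ => sum_congr rfl fun t _ => by ring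
  have s4 : ∑ t, w t * ∑ x ∈ Ov A Q P t, w x * (lam x t - 1) ≤
      ∑ t, w t * ∑ v ∈ V0 t, w v * (lam (sel v t) t - 1) :=
    sum_le_sum fun t _ => mul_le_mul_of_nonneg_left (hcol t) (hw t).le
  have s5 : ∑ t, w t * ∑ v ∈ V0 t, w v * (lam (sel v t) t - 1) =
      ∑ v, w v * ∑ t ∈ Rm A P Q v, w t * lam (sel v t) t - M w (Rm A P Q) := by
    simp only [mul_sum]
    rw [← swap_sum (Rm A P Q) V0 (fun v t => (mV0 t v).symm)
      (fun v t => w t * (w v * (lam (sel v t) t - 1)))]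
    simp only [M, W, mul_sum, ← sum_sub_distrib]
    refine sum_congr rfl fun x _ => sum_congr rfl fun t _ => by ring
  have s6 : ∑ v, w v * ∑ t ∈ Rm A P Q v, w t * lam (sel v t) t ≤ M w (Os A P Q) :=
    sum_le_sum fun v _ => mul_le_mul_of_nonneg_left (hrow v) (hw v).le
  linarith

end Crest.Agent.R57
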