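import Crest.Agent.R57.KDefs

set_option autoImplicit false
set_option linter.unusedSectionVars false

namespace Crest.Agent.R57

open Finset

variable {V : Type*} [Fintype V] [DecidableEq V]

/-- F1 summed over a band family is positive (take a minimal nonempty closed set `S`, `v ∈ S`;
`v` has an in-neighbour in `S`, so `P v` is not closed). -/
theorem strict [Nonempty V] {A : V → Finset V} {w : V → ℝ} (hw : ∀ v, 0 < w v) (h : Ext A w)
    {P : V → Finset V} (hP : Band A P) : 0 < ∑ v, w v * phi A w (P v) := by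
  have hw' : ∀ v, 0 ≤ w v := fun v => (hw v).le
  let C : Finset (Finset V) := univ.filter (fun S => S.Nonempty ∧ G A S = S)
  have hC : C.Nonempty := ⟨univ, by
    simp only [C, mem_filter, mem_univ, true_and]
    exact ⟨univ_nonempty, Subset.antisymm (subset_univ _) (subset_G A _)⟩⟩
  obtain ⟨S, hS, hmin⟩ := C.exists_min_image card hC
  obtain ⟨⟨v, hv⟩, hcl⟩ : S.Nonempty ∧ G A S = S := by simpa [C] using hS
  have hmin' : ∀ T : Finset V, T.Nonempty → G A T = T → S.card ≤ T.card :=
    fun T h1 h2 => hmin T (by simp [C, h1, h2])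
  obtain ⟨y, hy⟩ : (A v).Nonempty := by
    rw [nonempty_iff_ne_empty]
    intro e
    have g1 : G A {v} = {v} := by ext y; simp [mem_G_single, e]
    have := h.1.2 v
    simp only [phi, g1] at this
    linarith
  have hyS : y ∈ S := hcl ▸ mem_G.2 (Or.inr ⟨v, hv, hy⟩)
  have hyv : y ≠ v := fun e => h.1.1.1 v (e ▸ hy)
  obtain ⟨z, hzS, hzv, hvz⟩ : ∃ z ∈ S, z ≠ v ∧ v ∈ A z := by
    by_contra hc
    push Not at hc
    have h1 : G A (S.erase v) = S.erase v := by
      refine Subset.antisymm (fun u hu => ?_) (subset_G A _)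
      rcases mem_G.1 hu with h2 | ⟨x, hx, h2⟩
      · exact h2
      · rw [mem_erase] at hx ⊢
        refine ⟨fun e => hc x hx.2 hx.1 (e ▸ h2), ?_⟩
        exact hcl ▸ mem_G.2 (Or.inr ⟨x, hx.2, h2⟩)
    have h2 := hmin' _ ⟨y, mem_erase.2 ⟨hyv, hyS⟩⟩ h1
    have h3 := card_erase_lt_of_mem hv
    omega
  have hne : G A (P v) ≠ P v := by
    intro e
    have h1 : G A (P v ∩ S) = P v ∩ S := by
      refine Subset.antisymm (subset_inter ?_ ?_) (subset_G A _)
      · exact (G_mono A inter_subset_left).trans e.subset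
      · exact (G_mono A inter_subset_right).trans hcl.subset
    have h2 := hmin' _ ⟨v, mem_inter.2 ⟨(hP v).1, hv⟩⟩ h1
    have h3 : P v ∩ S = S := eq_of_subset_of_card_le inter_subset_right h2
    have h4 : z ∈ P v := (mem_inter.1 (h3.symm ▸ hzS : z ∈ P v ∩ S)).1
    exact (hP v).2 z h4 hzv (subset_G A _ (mem_G_single.2 (Or.inr hvz)))
  exact sum_pos' (fun u _ => mul_nonneg (hw' u) (h.phi_nonneg hw' _))
    ⟨v, mem_univ v, mul_pos (hw v) (h.phi_pos hw' _ hne)⟩

end Crest.Agent.R57
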