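import Crest.Agent.R57.KHall
import Crest.Agent.R57.KProd
import Crest.Agent.R57.KEnd
import Crest.Agent.R57.KStrict

set_option autoImplicit false
set_option linter.unusedSectionVars false

namespace Crest.Agent.R57

open Finset

variable {V : Type*} [Fintype V] [DecidableEq V]

lemma Band.sdiff {A P Q : V → Finset V} (hP : Band A P) :
    Band A (fun v => P v \ Rm A P Q v) := fun v =>
  ⟨mem_sdiff.2 ⟨(hP v).1, fun h => (mem_Rm.1 h).2.1 rfl⟩,
    fun z hz => (hP v).2 z (mem_sdiff.1 hz).1⟩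

theorem no_cex [Nonempty V] {A : V → Finset V} {w : V → ℝ} (hw : ∀ v, 0 < w v) :
    ¬ Cex A w := by
  classical
  intro hc
  obtain ⟨B, hB⟩ := exists_ext hc
  have hO : Ori B := hB.1.1
  let C : Finset ((V → Finset V) × (V → Finset V)) :=
    univ.filter (fun p => Band B p.1 ∧ Band B p.2)
  have hd : Band B (fun v => {v}) := fun v =>
    ⟨mem_singleton_self v, fun z hz hne => absurd (mem_singleton.1 hz) hne⟩
  have hC : C.Nonempty := ⟨(fun v => {v}, fun v => {v}), by simp [C, hd]⟩
  obtain ⟨⟨P, Q⟩, hPQ, hm⟩ := C.exists_min_image (fun p => En B w p.1 p.2) hC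
  obtain ⟨hP, hQ⟩ : Band B P ∧ Band B Q := by simpa [C] using hPQ
  have hmin : ∀ P' Q', Band B P' → Band B Q' → En B w P Q ≤ En B w P' Q' :=
    fun P' Q' h1 h2 => hm (P', Q') (by simp [C, h1, h2])
  have h1 : HallC B w P Q := hallC hw hO hP hQ (fun P' h => hmin P' Q h hQ)
  have h2 : HallC B w Q P := hallC hw hO hQ hP (fun Q' h => by
    rw [En_symm, En_symm B w Q']; exact hmin P Q' hP h)
  have h3 := end_ineq hw hO hP hQ hmin (prod_ineq hw hO hP hQ h1 h2)
  have h4 := strict hw hB (hP.sdiff (Q := Q))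
  have h5 := strict hw hB (hQ.sdiff (Q := P))
  linarith

end Crest.Agent.R57
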