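import Mathlib

/-! Row 57, step 3: the four-corner counting inequality, by linear algebra. -/

set_option autoImplicit false
open Finset

namespace Crest.Agent.R57Lin

variable {V : Type*} [Fintype V] [DecidableEq V]

theorem core (r : V → V → Prop) (M : V → V → ℝ) (hM0 : ∀ a b, ¬ r a b → M a b = 0)
    (N D E F Dd De : Finset (V × V))
    (hsq : ∀ x u z y, (x, u) ∈ E → (z, y) ∈ F → r z x → r u y → (z, u) ∈ N ∧ (x, y) ∈ D)
    (hDd : ∀ z y, (z, y) ∈ Dd → (z, y) ∈ F ∧ ∃ u, r u y ∧ (z, u) ∈ N)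
    (hDe : ∀ x u, (x, u) ∈ De → (x, u) ∈ E ∧ ∃ z, r z x ∧ (z, u) ∈ N)
    (hcol : ∀ u (s : V → ℝ), (∀ z, (z, u) ∉ N → s z = 0) →
      (∀ x, (x, u) ∈ E → ∑ z, s z * M z x = 0) → ∀ z, s z = 0)
    (hrow : ∀ z (t : V → ℝ), (∀ u, (z, u) ∉ N → t u = 0) →
      (∀ y, (z, y) ∈ F → ∑ u, t u * M u y = 0) → ∀ u, t u = 0)
    (s t : V × V → ℝ) (hs : ∀ p, p ∉ Dd → s p = 0) (ht : ∀ p, p ∉ De → t p = 0)
    (h1 : ∀ p ∈ D, ∑ z, s (z, p.2) * M z p.1 = ∑ u, t (p.1, u) * M u p.2)
    (h2 : ∀ p ∈ N, ∑ y, s (p.1, y) * M p.2 y + ∑ x, t (x, p.2) * M p.1 x = 0) :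
    (∀ p, s p = 0) ∧ (∀ p, t p = 0) := by
  classical
  set a : V × V → ℝ := fun p => ∑ z, s (z, p.2) * M z p.1 with ha
  set b : V × V → ℝ := fun p => ∑ u, t (p.1, u) * M u p.2 with hb
  set c : V × V → ℝ := fun p => ∑ y, s (p.1, y) * M p.2 y with hc
  set q : V × V → ℝ := fun p => ∑ x, t (x, p.2) * M p.1 x with hq
  have hsF : ∀ z y, s (z, y) ≠ 0 → (z, y) ∈ F := fun z y h => by
    by_contra hn
    exact h (hs _ fun hm => hn (hDd z y hm).1)
  have htE : ∀ x u, t (x, u) ≠ 0 → (x, u) ∈ E := fun x u h => by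
    by_contra hn
    exact h (ht _ fun hm => hn (hDe x u hm).1)
  have hMr : ∀ a b, M a b ≠ 0 → r a b := fun a b h => by
    by_contra hn
    exact h (hM0 a b hn)
  have hab : ∀ p, p ∉ D → a p * b p = 0 := by
    rintro ⟨x, y⟩ hp
    by_contra hne
    obtain ⟨z, -, hz⟩ := exists_ne_zero_of_sum_ne_zero (left_ne_zero_of_mul hne)
    obtain ⟨u, -, hu⟩ := exists_ne_zero_of_sum_ne_zero (right_ne_zero_of_mul hne)
    exact hp (hsq x u z y (htE _ _ (left_ne_zero_of_mul hu)) (hsF _ _ (left_ne_zero_of_mul hz))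
      (hMr _ _ (right_ne_zero_of_mul hz)) (hMr _ _ (right_ne_zero_of_mul hu))).2
  have hcq : ∀ p, p ∉ N → c p * q p = 0 := by
    rintro ⟨z, u⟩ hp
    by_contra hne
    obtain ⟨y, -, hy⟩ := exists_ne_zero_of_sum_ne_zero (left_ne_zero_of_mul hne)
    obtain ⟨x, -, hx⟩ := exists_ne_zero_of_sum_ne_zero (right_ne_zero_of_mul hne)
    exact hp (hsq x u z y (htE _ _ (left_ne_zero_of_mul hx)) (hsF _ _ (left_ne_zero_of_mul hy))
      (hMr _ _ (right_ne_zero_of_mul hx)) (hMr _ _ (right_ne_zero_of_mul hy))).1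
  have hfub : ∑ p, a p * b p = ∑ p, c p * q p := by
    have e1 : ∑ p, a p * b p =
        ∑ x, ∑ y, ∑ z, ∑ u, s (z, y) * M z x * (t (x, u) * M u y) := by
      rw [Fintype.sum_prod_type]
      refine sum_congr rfl fun x _ => sum_congr rfl fun y _ => ?_
      simp only [ha, hb, sum_mul_sum]
    have e2 : ∑ p, c p * q p =
        ∑ z, ∑ u, ∑ y, ∑ x, s (z, y) * M u y * (t (x, u) * M z x) := by
      rw [Fintype.sum_prod_type]
      refine sum_congr rfl fun x _ => sum_congr rfl fun y _ => ?_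
      simp only [hc, hq, sum_mul_sum]
    rw [e1, e2]
    calc ∑ x, ∑ y, ∑ z, ∑ u, s (z, y) * M z x * (t (x, u) * M u y)
        = ∑ x, ∑ z, ∑ y, ∑ u, s (z, y) * M z x * (t (x, u) * M u y) :=
          sum_congr rfl fun x _ => sum_comm
      _ = ∑ z, ∑ x, ∑ y, ∑ u, s (z, y) * M z x * (t (x, u) * M u y) := sum_comm
      _ = ∑ z, ∑ x, ∑ u, ∑ y, s (z, y) * M z x * (t (x, u) * M u y) :=
          sum_congr rfl fun z _ => sum_congr rfl fun x _ => sum_comm
      _ = ∑ z, ∑ u, ∑ x, ∑ y, s (z, y) * M z x * (t (x, u) * M u y) :=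
          sum_congr rfl fun z _ => sum_comm
      _ = ∑ z, ∑ u, ∑ y, ∑ x, s (z, y) * M z x * (t (x, u) * M u y) :=
          sum_congr rfl fun z _ => sum_congr rfl fun u _ => sum_comm
      _ = _ := sum_congr rfl fun z _ => sum_congr rfl fun u _ => sum_congr rfl fun y _ =>
          sum_congr rfl fun x _ => by ring
  have hD : ∑ p, a p * b p = ∑ p ∈ D, a p ^ 2 := by
    rw [← sum_subset (subset_univ D) (fun p _ hp => hab p hp)]
    refine sum_congr rfl fun p hp => ?_
    have : a p = b p := h1 p hp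
    rw [← this]; ring
  have hN : ∑ p, c p * q p = - ∑ p ∈ N, c p ^ 2 := by
    rw [← sum_subset (subset_univ N) (fun p _ hp => hcq p hp), ← sum_neg_distrib]
    refine sum_congr rfl fun p hp => ?_
    have : c p + q p = 0 := h2 p hp
    have h' : q p = - c p := by linarith
    rw [h']; ring
  have hD0 : ∑ p ∈ D, a p ^ 2 = 0 := by
    have i1 : 0 ≤ ∑ p ∈ D, a p ^ 2 := sum_nonneg fun p _ => sq_nonneg _
    have i2 : 0 ≤ ∑ p ∈ N, c p ^ 2 := sum_nonneg fun p _ => sq_nonneg _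
    linarith
  have ha0 : ∀ p ∈ D, a p = 0 := fun p hp =>
    pow_eq_zero_iff (two_ne_zero) |>.1
      ((sum_eq_zero_iff_of_nonneg fun p _ => sq_nonneg (a p)).1 hD0 p hp)
  have hb0 : ∀ p ∈ D, b p = 0 := fun p hp => by
    have : a p = b p := h1 p hp
    rw [← this]; exact ha0 p hp
  constructor
  · rintro ⟨z0, y⟩
    by_cases hm : (z0, y) ∈ Dd
    swap
    · exact hs _ hm
    obtain ⟨-, u, huy, hzu⟩ := hDd z0 y hm
    have := hcol u (fun z => if (z, u) ∈ N then s (z, y) else 0) (fun z hz => by simp [hz])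
      (fun x hx => ?_) z0
    · simpa [hzu] using this
    by_cases hxy : (x, y) ∈ D
    · refine Eq.trans (sum_congr rfl fun z _ => ?_) (ha0 _ hxy)
      by_cases hz : (z, u) ∈ N
      · simp [hz]
      · simp only [hz, if_false, zero_mul]
        by_contra hne
        have hne' : s (z, y) * M z x ≠ 0 := fun h => hne h.symm
        exact hz (hsq x u z y hx (hsF _ _ (left_ne_zero_of_mul hne'))
          (hMr _ _ (right_ne_zero_of_mul hne')) huy).1
    · refine sum_eq_zero fun z _ => ?_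
      by_cases hz : (z, u) ∈ N
      · simp only [hz, if_true]
        by_contra hne'
        exact hxy (hsq x u z y hx (hsF _ _ (left_ne_zero_of_mul hne'))
          (hMr _ _ (right_ne_zero_of_mul hne')) huy).2
      · simp [hz]
  · rintro ⟨x, u0⟩
    by_cases hm : (x, u0) ∈ De
    swap
    · exact ht _ hm
    obtain ⟨-, z, hzx, hzu⟩ := hDe x u0 hm
    have := hrow z (fun u => if (z, u) ∈ N then t (x, u) else 0) (fun u hu => by simp [hu])
      (fun y hy => ?_) u0
    · simpa [hzu] using this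
    by_cases hxy : (x, y) ∈ D
    · refine Eq.trans (sum_congr rfl fun u _ => ?_) (hb0 _ hxy)
      by_cases hu : (z, u) ∈ N
      · simp [hu]
      · simp only [hu, if_false, zero_mul]
        by_contra hne
        have hne' : t (x, u) * M u y ≠ 0 := fun h => hne h.symm
        exact hu (hsq x u z y (htE _ _ (left_ne_zero_of_mul hne')) hy hzx
          (hMr _ _ (right_ne_zero_of_mul hne'))).1
    · refine sum_eq_zero fun u _ => ?_
      by_cases hu : (z, u) ∈ N
      · simp only [hu, if_true]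
        by_contra hne'
        exact hxy (hsq x u z y (htE _ _ (left_ne_zero_of_mul hne')) hy hzx
          (hMr _ _ (right_ne_zero_of_mul hne'))).2
      · simp [hu]

/-- Extension by zero. -/
def ext0 (S : Finset (V × V)) : (S → ℝ) →ₗ[ℝ] (V × V → ℝ) where
  toFun s p := if h : p ∈ S then s ⟨p, h⟩ else 0
  map_add' s t := by
    funext p
    by_cases h : p ∈ S <;> simp [h]
  map_smul' c s := by
    funext p
    by_cases h : p ∈ S <;> simp [h]

theorem lin_count (r : V → V → Prop) (M : V → V → ℝ) (hM0 : ∀ a b, ¬ r a b → M a b = 0)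
    (N D E F Dd De : Finset (V × V))
    (hsq : ∀ x u z y, (x, u) ∈ E → (z, y) ∈ F → r z x → r u y → (z, u) ∈ N ∧ (x, y) ∈ D)
    (hDd : ∀ z y, (z, y) ∈ Dd → (z, y) ∈ F ∧ ∃ u, r u y ∧ (z, u) ∈ N)
    (hDe : ∀ x u, (x, u) ∈ De → (x, u) ∈ E ∧ ∃ z, r z x ∧ (z, u) ∈ N)
    (hcol : ∀ u (s : V → ℝ), (∀ z, (z, u) ∉ N → s z = 0) →
      (∀ x, (x, u) ∈ E → ∑ z, s z * M z x = 0) → ∀ z, s z = 0)
    (hrow : ∀ z (t : V → ℝ), (∀ u, (z, u) ∉ N → t u = 0) →
      (∀ y, (z, y) ∈ F → ∑ u, t u * M u y = 0) → ∀ u, t u = 0) :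
    Dd.card + De.card ≤ D.card + N.card := by
  classical
  let L : ((Dd → ℝ) × (De → ℝ)) →ₗ[ℝ] ((D → ℝ) × (N → ℝ)) :=
    { toFun := fun v =>
        (fun p => ∑ z, ext0 Dd v.1 (z, p.1.2) * M z p.1.1 - ∑ u, ext0 De v.2 (p.1.1, u) * M u p.1.2,
         fun p => ∑ y, ext0 Dd v.1 (p.1.1, y) * M p.1.2 y + ∑ x, ext0 De v.2 (x, p.1.2) * M p.1.1 x)
      map_add' := fun v w => by
        ext p
        · simp only [Prod.fst_add, Prod.snd_add, map_add, Pi.add_apply, add_mul, sum_add_distrib]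
          ring
        · simp only [Prod.fst_add, Prod.snd_add, map_add, Pi.add_apply, add_mul, sum_add_distrib]
          ring
      map_smul' := fun c v => by
        ext p
        · simp only [Prod.smul_fst, Prod.smul_snd, map_smul, Pi.smul_apply, smul_eq_mul,
            RingHom.id_apply, mul_sub, mul_sum, mul_assoc]
        · simp only [Prod.smul_fst, Prod.smul_snd, map_smul, Pi.smul_apply, smul_eq_mul,
            RingHom.id_apply, mul_add, mul_sum, mul_assoc] }
  have hinj : Function.Injective L := by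
    rw [injective_iff_map_eq_zero]
    intro v hv
    have hv1 := congrArg Prod.fst hv
    have hv2 := congrArg Prod.snd hv
    obtain ⟨hs, ht⟩ := core r M hM0 N D E F Dd De hsq hDd hDe hcol hrow (ext0 Dd v.1) (ext0 De v.2)
      (fun p hp => by simp [ext0, hp]) (fun p hp => by simp [ext0, hp])
      (fun p hp => sub_eq_zero.1 (congrFun hv1 ⟨p, hp⟩)) (fun p hp => congrFun hv2 ⟨p, hp⟩)
    ext p
    · have := hs p.1
      simpa [ext0, p.2] using this
    · have := ht p.1
      simpa [ext0, p.2] using this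
  have := LinearMap.finrank_le_finrank_of_injective hinj
  simpa [Module.finrank_prod] using this

end Crest.Agent.R57Lin
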