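import Mathlib

set_option autoImplicit false
set_option linter.unusedSectionVars false

namespace Crest.Agent.R57Lob

open Finset

variable {V : Type*} [DecidableEq V]

/-- lexicographically optimal base of a submodular function, weighted version:
`b x * w x` are the base coordinates. -/
theorem lob_gen (w : V → ℝ) (hw : ∀ x, 0 < w x) (n : ℕ) :
    ∀ (N : Finset V) (ρ : Finset V → ℝ) (c : ℝ), N.card ≤ n → ρ ∅ = 0 →
      (∀ S T, ρ (S ∪ T) + ρ (S ∩ T) ≤ ρ S + ρ T) →
      (∀ Z, Z ⊆ N → c * ∑ x ∈ Z, w x ≤ ρ Z) →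
      ∃ b : V → ℝ, (∀ x ∈ N, c ≤ b x) ∧ (∀ Z, Z ⊆ N → ∑ x ∈ Z, w x * b x ≤ ρ Z) ∧
        (∀ t, ∑ x ∈ N.filter (fun x => b x < t), w x * b x = ρ (N.filter (fun x => b x < t))) ∧
        ∑ x ∈ N, w x * b x = ρ N := by
  classical
  induction n with
  | zero =>
    intro N ρ c hN h0 _ _
    have : N = ∅ := card_eq_zero.1 (Nat.le_zero.1 hN)
    subst this
    refine ⟨fun _ => c, by simp, ?_, ?_, by simp [h0]⟩
    · intro Z hZ
      have : Z = ∅ := subset_empty.1 hZ
      subst this; simp [h0]
    · intro t; simp [h0]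
  | succ n ih =>
    intro N ρ c hN h0 hsub hc
    rcases N.eq_empty_or_nonempty with rfl | hne
    · exact ih ∅ ρ c (by simp) h0 hsub hc
    have hP : (N.powerset.filter (fun Z => Z.Nonempty)).Nonempty :=
      ⟨N, by simp [hne]⟩
    obtain ⟨Z0, hZ0, hmin⟩ := exists_min_image _ (fun Z => ρ Z / ∑ x ∈ Z, w x) hP
    rw [mem_filter, mem_powerset] at hZ0
    have hpos : ∀ Z : Finset V, Z.Nonempty → 0 < ∑ x ∈ Z, w x := fun Z hZ =>
      sum_pos (fun x _ => hw x) hZ
    set l := ρ Z0 / ∑ x ∈ Z0, w x with hl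
    have hl0 : l * ∑ x ∈ Z0, w x = ρ Z0 := by
      rw [hl]; exact div_mul_cancel₀ _ (hpos Z0 hZ0.2).ne'
    have hlZ : ∀ Z, Z ⊆ N → l * ∑ x ∈ Z, w x ≤ ρ Z := by
      intro Z hZ
      rcases Z.eq_empty_or_nonempty with rfl | hZn
      · simp [h0]
      · have := hmin Z (by simp [hZ, hZn])
        exact (le_div_iff₀ (hpos Z hZn)).1 this
    have hcl : c ≤ l := by
      rw [hl, le_div_iff₀ (hpos Z0 hZ0.2)]; exact hc Z0 hZ0.1
    have hcard : (N \ Z0).card ≤ n := by
      have h1 := card_sdiff_add_card_eq_card hZ0.1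
      have h2 := hZ0.2.card_pos
      omega
    obtain ⟨b', hb1, hb2, hb3, hb4⟩ := ih (N \ Z0) (fun Z => ρ (Z ∪ Z0) - ρ Z0) l hcard
      (by simp) (by
        intro S T
        have := hsub (S ∪ Z0) (T ∪ Z0)
        have e1 : S ∪ Z0 ∪ (T ∪ Z0) = S ∪ T ∪ Z0 := by ext; simp; tauto
        have e2 : (S ∪ Z0) ∩ (T ∪ Z0) = S ∩ T ∪ Z0 := by ext; simp; tauto
        rw [e1, e2] at this; linarith) (by
        intro Z hZ
        have hd : Disjoint Z Z0 := by
          rw [disjoint_left]; intro x hx hx0; exact (mem_sdiff.1 (hZ hx)).2 hx0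
        have := hlZ (Z ∪ Z0) (union_subset (hZ.trans sdiff_subset) hZ0.1)
        rw [sum_union hd] at this
        linarith)
    have key : ∀ Z : Finset V, ∑ x ∈ Z, w x * (if x ∈ Z0 then l else b' x)
        = l * ∑ x ∈ Z ∩ Z0, w x + ∑ x ∈ Z \ Z0, w x * b' x := by
      intro Z
      rw [← sum_inter_add_sum_sdiff Z Z0, mul_sum]
      congr 1
      · refine sum_congr rfl fun x hx => ?_
        rw [if_pos (mem_inter.1 hx).2, mul_comm]
      · refine sum_congr rfl fun x hx => ?_
        rw [if_neg (mem_sdiff.1 hx).2]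
    refine ⟨fun x => if x ∈ Z0 then l else b' x, ?_, ?_, ?_, ?_⟩
    · intro x hx
      by_cases h : x ∈ Z0
      · simp [h, hcl]
      · simp only [h, if_false]; exact hcl.trans (hb1 x (mem_sdiff.2 ⟨hx, h⟩))
    · intro Z hZ
      rw [key]
      have h1 := hb2 (Z \ Z0) (sdiff_subset_sdiff hZ Subset.rfl)
      have h2 := hlZ (Z ∩ Z0) (inter_subset_left.trans hZ)
      have h3 := hsub Z Z0
      simp only [sdiff_union_self_eq_union] at h1
      linarith
    · intro t
      rw [key]
      by_cases ht : l < t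
      · have e1 : (N.filter (fun x => (if x ∈ Z0 then l else b' x) < t)) ∩ Z0 = Z0 := by
          ext x; simp only [mem_inter, mem_filter]
          constructor
          · exact fun h => h.2
          · intro h; exact ⟨⟨hZ0.1 h, by simp [h, ht]⟩, h⟩
        have e2 : (N.filter (fun x => (if x ∈ Z0 then l else b' x) < t)) \ Z0
            = (N \ Z0).filter (fun x => b' x < t) := by
          ext x; simp only [mem_sdiff, mem_filter]
          constructor
          · rintro ⟨⟨h1, h2⟩, h3⟩; rw [if_neg h3] at h2; exact ⟨⟨h1, h3⟩, h2⟩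
          · rintro ⟨⟨h1, h3⟩, h2⟩; exact ⟨⟨h1, by rw [if_neg h3]; exact h2⟩, h3⟩
        have e3 : (N \ Z0).filter (fun x => b' x < t) ∪ Z0
            = N.filter (fun x => (if x ∈ Z0 then l else b' x) < t) := by
          rw [← e2]; conv_lhs => rw [← e1]
          rw [e1]
          ext x; simp only [mem_union, mem_sdiff]
          constructor
          · rintro (h | h)
            · exact h.1
            · have : x ∈ (N.filter (fun x => (if x ∈ Z0 then l else b' x) < t)) ∩ Z0 := by
                rw [e1]; exact h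
              exact (mem_inter.1 this).1
          · intro h; by_cases h' : x ∈ Z0
            · exact Or.inr h'
            · exact Or.inl ⟨h, h'⟩
        rw [e1, e2, hb3 t, e3, hl0]; ring
      · have e : N.filter (fun x => (if x ∈ Z0 then l else b' x) < t) = ∅ := by
          rw [filter_eq_empty_iff]
          intro x hx
          by_cases h : x ∈ Z0
          · simp only [h, if_true]; exact ht
          · simp only [h, if_false]
            have := hb1 x (mem_sdiff.2 ⟨hx, h⟩)
            intro h'; exact ht (lt_of_le_of_lt this h')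
        rw [e]; simp [h0]
    · rw [key, hb4, inter_eq_right.2 hZ0.1, hl0, sdiff_union_of_subset hZ0.1]; ring

end Crest.Agent.R57Lob
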